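import Vale.Agent.P216.H787.Cls

/-!
# P216-D, [E2], lemma (U) : uniform scales

On a compact set, a cochain which is closed at scale `ε` and exact at some scale is exact at a
scale `ε'` which does not depend on the cochain.
-/

open Set

namespace Vale.Agent.P216.H670.Unif

open Sl PS

variable {k : Type} [Field k] {E : Type} [PseudoMetricSpace E]

/-- the pull back of a cochain on a finite net -/
noncomputable def pbk {N : Type} (φ : E → N) {m : ℕ} (w : (Fin m → N) → k) (l : List E) : k :=
  toL w (l.map φ)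

/-- the cochains of the net which are exact at scale `δ` -/
noncomputable def Ex {N : Type} (φ : E → N) (X : Set E) (n : ℕ) (δ : ℝ) :
    Submodule k ((Fin (n + 1) → N) → k) where
  carrier := {w | ∃ g : List E → k, ∀ l, l.length = n + 1 → SmL X δ l → pbk φ w l = dl g l}
  zero_mem' := ⟨fun _ => 0, fun l _ _ => by
    rw [PS.dl_zero_fun]
    have := toL_smul (0 : k) (0 : (Fin (n + 1) → N) → k) (l.map φ)
    rw [zero_smul, zero_mul] at this
    exact this⟩
  add_mem' := by
    rintro w w' ⟨g, hg⟩ ⟨g', hg'⟩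
    refine ⟨fun l => g l + g' l, fun l hl hs => ?_⟩
    rw [PS.dl_add, ← hg l hl hs, ← hg' l hl hs]
    exact toL_add _ _ _
  smul_mem' := by
    rintro a w ⟨g, hg⟩
    refine ⟨fun l => a * g l, fun l hl hs => ?_⟩
    rw [PS.dl_smul, ← hg l hl hs]
    exact toL_smul _ _ _

theorem Ex_anti {N : Type} (φ : E → N) (X : Set E) (n : ℕ) {δ δ' : ℝ} (h : δ ≤ δ') :
    Ex (k := k) φ X n δ' ≤ Ex φ X n δ := by
  rintro w ⟨g, hg⟩
  exact ⟨g, fun l hl hs => hg l hl (hs.mono le_rfl h)⟩

/-- **(U)** -/
theorem unif {X : Set E} (hX : IsCompact X) (n : ℕ) {ε : ℝ} (hε : 0 < ε) :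
    ∃ ε' > 0, ∀ f : List E → k, (∀ l, l.length = n + 2 → SmL X ε l → dl f l = 0) →
      ExL X n f → ∃ g : List E → k, (n = 0 → ∀ l, g l = 0) ∧
        ∀ l, l.length = n + 1 → SmL X ε' l → f l = dl g l := by
  rcases Nat.eq_zero_or_pos n with hn | hn
  · subst hn
    refine ⟨ε, hε, fun f _ hf => ?_⟩
    obtain ⟨g, hg, δ, hδ, h⟩ := hf
    refine ⟨g, hg, fun l hl hs => ?_⟩
    obtain ⟨x, rfl⟩ : ∃ x, l = [x] := List.length_eq_one_iff.1 hl
    refine h _ rfl ⟨fun y hy => hs.1 y hy, fun y hy z hz => ?_⟩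
    rw [List.mem_singleton.1 hy, List.mem_singleton.1 hz, dist_self]
    exact hδ
  rcases X.eq_empty_or_nonempty with rfl | ⟨x₀, hx₀⟩
  · refine ⟨1, one_pos, fun f _ _ => ⟨fun _ => 0, fun _ _ => rfl, fun l hl hs => ?_⟩⟩
    exfalso
    rcases l with _ | ⟨x, l⟩
    · simp at hl
    · exact hs.1 x (by simp)
  -- the net
  obtain ⟨s, hsX, hsf, hcov⟩ := finite_cover_balls_of_compact hX (show 0 < ε / 4 by linarith)
  have hex : ∀ x : E, ∃ y : s, x ∈ X → dist x y < ε / 4 := by
    intro x
    by_cases hx : x ∈ X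
    · have := hcov hx
      simp only [mem_iUnion, Metric.mem_ball] at this
      obtain ⟨y, hy, hxy⟩ := this
      exact ⟨⟨y, hy⟩, fun _ => hxy⟩
    · have := hcov hx₀
      simp only [mem_iUnion, Metric.mem_ball] at this
      obtain ⟨y, hy, -⟩ := this
      exact ⟨⟨y, hy⟩, fun h => absurd h hx⟩
  choose φ hφ using hex
  have : Finite s := hsf
  have : Fintype s := Fintype.ofFinite _
  -- stabilisation
  let S : ℕ →o Submodule k ((Fin (n + 1) → s) → k) :=
    ⟨fun j => Ex φ X n (1 / ((j : ℝ) + 1)), fun i j hij => Ex_anti φ X n (by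
      have : (i : ℝ) ≤ j := by exact_mod_cast hij
      gcongr)⟩
  obtain ⟨j0, hj0⟩ := monotone_stabilizes_iff_noetherian.2
    (inferInstance : IsNoetherian k ((Fin (n + 1) → s) → k)) S
  have hj0' : (0 : ℝ) < 1 / ((j0 : ℝ) + 1) := by positivity
  refine ⟨min (ε / 4) (1 / ((j0 : ℝ) + 1)), lt_min (by linarith) hj0', fun f hf hex => ?_⟩
  -- the two cochains `f` and `f ∘ φ`
  set w : (Fin (n + 1) → s) → k := fun x => f (List.ofFn fun i => ((x i : s) : E)) with hw
  have hwf : ∀ l : List E, l.length = n + 1 → pbk φ w l = f (l.map fun x => ((φ x : s) : E)) := by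
    intro l hl
    obtain ⟨x, rfl⟩ := exists_ofFn hl
    rw [pbk, List.map_ofFn, toL_ofFn, hw, List.map_ofFn]
    rfl
  set g₁ : List E → k := prg (fun x => ((φ x : s) : E)) id f with hg₁
  have hcont : ∀ l : List E, l.length = n + 1 → SmL X (ε / 4) l →
      f l - pbk φ w l = dl g₁ l := by
    intro l hl hs
    have hne : l ≠ [] := by
      rintro rfl
      simp at hl
    have h1 := prg_spec (fun x => ((φ x : s) : E)) id f (l := l) hne (by
      intro l' hl' hmem
      refine hf l' (by omega) ⟨fun y hy => ?_, fun y hy z hz => ?_⟩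
      · obtain ⟨x, hx, h | h⟩ := hmem y hy
        · rw [h]
          exact hsX (φ x).2
        · rw [h]
          exact hs.1 x hx
      · obtain ⟨x, hx, h⟩ := hmem y hy
        obtain ⟨x', hx', h'⟩ := hmem z hz
        have hxx : dist x x' < ε / 4 := hs.2 x hx x' hx'
        have a1 : dist y x < ε / 4 ∨ y = x := by
          rcases h with h | h
          · left
            rw [h, dist_comm]
            exact hφ x (hs.1 x hx)
          · exact Or.inr h
        have a1' : dist y x ≤ ε / 4 := by
          rcases a1 with h | h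
          · exact h.le
          · rw [h, dist_self]; linarith
        have a2 : dist x' z ≤ ε / 4 := by
          rcases h' with h | h
          · rw [h]
            exact (hφ x' (hs.1 x' hx')).le
          · rw [h]
            show dist x' x' ≤ _
            rw [dist_self]; linarith
        have := dist_triangle4 y x x' z
        linarith)
    rw [List.map_id] at h1
    rw [hwf l hl]
    exact h1
  -- exactness of `w` at some scale, hence at scale `1 / (j0 + 1)`
  obtain ⟨g, -, δ, hδ, hg⟩ := hex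
  obtain ⟨j, hj⟩ := exists_nat_one_div_lt (lt_min hδ (show 0 < ε / 4 by linarith))
  have hwj : w ∈ S j := by
    refine ⟨fun l => g l + (-1) * g₁ l, fun l hl hs => ?_⟩
    rw [PS.dl_add, PS.dl_smul]
    have h1 := hg l hl (hs.mono le_rfl (hj.le.trans (min_le_left _ _)))
    have h2 := hcont l hl (hs.mono le_rfl (hj.le.trans (min_le_right _ _)))
    rw [← h1, ← h2]
    ring
  have hwj0 : w ∈ S j0 := by
    have h1 : w ∈ S (max j j0) := S.monotone (le_max_left j j0) hwj
    rwa [← hj0 (max j j0) (le_max_right _ _)] at h1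
  obtain ⟨g', hg'⟩ := hwj0
  refine ⟨fun l => g' l + g₁ l, fun h0 => absurd h0 (by omega), fun l hl hs => ?_⟩
  rw [PS.dl_add, ← hcont l hl (hs.mono le_rfl (min_le_left _ _)),
    ← hg' l hl (hs.mono le_rfl (min_le_right _ _))]
  ring

end Vale.Agent.P216.H670.Unif
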