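import Vale.Agent.P216.H670.CircG
import Vale.Agent.P216.DV706.Nat
import Vale.Agent.P216.T695.IfaceB
import Vale.Agent.P216.AS.NoGSys

/-!
# The exact sequence of a pair in `S¹`-cohomology, with the reversal (field `rel` of `PSysB`)
-/

open Set
open Module (finrank)

namespace Vale.Agent.P216.DV

open Vale.Agent.P216.AS Vale.Agent.P216.Tight923

variable {k : Type} [Field k] {C : Amb k} {G : GCx C} {X : Circ G} {R : Rev G}

namespace Circ.PSt

variable {P Q : G.Pair}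

/-- The reversal commutes with the restriction maps of `F`. -/
theorem rk_resF (h : X.PSt P) (h' : X.PSt Q) (hS : P.S ≤ Q.S) (hT : P.T ≤ Q.T)
    (hR : P.RStable R) (hR' : Q.RStable R) (hA : X.RComp R) (n : ℕ) (x : h.F n) :
    h'.rk hR' hA n (resF h h' hS hT n x) = resF h h' hS hT n (h.rk hR hA n x) := by
  refine Subtype.ext ?_
  rw [rk_coe, resF_coe, resF_coe, rk_coe, map_neg,
    GCx.Pair.rF_resF hR hR' hS hT (n + 1) x.1]

/-- bijective on `FF`: bijective on `F` -/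
theorem resF_bij (h : X.PSt P) (h' : X.PSt Q) (hS : P.S ≤ Q.S) (hT : P.T ≤ Q.T)
    (hb : ∀ n, Function.Bijective (GCx.Pair.resF hS hT n)) (n : ℕ) :
    Function.Bijective (resF h h' hS hT n) := by
  constructor
  · intro x y hxy
    have h1 := congrArg Subtype.val hxy
    rw [resF_coe, resF_coe] at h1
    exact Subtype.ext ((hb (n + 1)).1 h1)
  · intro y
    obtain ⟨x, hx⟩ := (hb (n + 1)).2 y.1
    have h1 : x ∈ h.F n := by
      rw [h.mem_F]
      refine (hb (n + 2)).1 ?_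
      rw [map_zero]
      have h2 := VF_resF h h' hS hT (n + 1) x
      rw [hx, h'.mem_F.mp y.2] at h2
      exact h2.symm
    exact ⟨⟨x, h1⟩, Subtype.ext (by rw [resF_coe]; exact hx)⟩

end Circ.PSt

end Vale.Agent.P216.DV

namespace Vale.Agent.P216.T695

open Vale.Agent.P216.AS (USeq chi)

section Transport

variable {k : Type} [Field k]
  {Ft Fs Ft' Fs' : ℕ → Type}
  [∀ n, AddCommGroup (Ft n)] [∀ n, Module k (Ft n)]
  [∀ n, AddCommGroup (Fs n)] [∀ n, Module k (Fs n)]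
  [∀ n, AddCommGroup (Ft' n)] [∀ n, Module k (Ft' n)]
  [∀ n, AddCommGroup (Fs' n)] [∀ n, Module k (Fs' n)]
  {ρ : ∀ n, Ft n →ₗ[k] Fs n} {rt : ∀ n, Ft n →ₗ[k] Ft n} {rs : ∀ n, Fs n →ₗ[k] Fs n}
  {ρ' : ∀ n, Ft' n →ₗ[k] Fs' n} {rt' : ∀ n, Ft' n →ₗ[k] Ft' n} {rs' : ∀ n, Fs' n →ₗ[k] Fs' n}

/-- transport of a `RelSeq` along isomorphisms -/
noncomputable def RelSeq.transport (Q : RelSeq k Ft Fs ρ rt rs) (e : ∀ n, Ft' n →ₗ[k] Ft n)
    (f : ∀ n, Fs n →ₗ[k] Fs' n) (he : ∀ n, Function.Bijective (e n))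
    (hf : ∀ n, Function.Bijective (f n)) (hρ : ∀ n x, ρ' n x = f n (ρ n (e n x)))
    (hre : ∀ n x, e n (rt' n x) = rt n (e n x)) (hrf : ∀ n x, f n (rs n x) = rs' n (f n x)) :
    RelSeq k Ft' Fs' ρ' rt' rs' where
  R := Q.R
  j n := (LinearEquiv.ofBijective (e n) (he n)).symm.toLinearMap ∘ₗ Q.j n
  δ n := Q.δ n ∘ₗ (LinearEquiv.ofBijective (f n) (hf n)).symm.toLinearMap
  ex1 n := by
    intro x
    have h1 : ρ' n x = 0 ↔ ρ n (e n x) = 0 := by
      rw [hρ]
      exact map_eq_zero_iff _ (hf n).1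
    rw [h1, Q.ex1 n (e n x)]
    constructor
    · rintro ⟨y, hy⟩
      refine ⟨y, ?_⟩
      apply (he n).1
      rw [← hy]
      exact (LinearEquiv.ofBijective (e n) (he n)).apply_symm_apply _
    · rintro ⟨y, rfl⟩
      exact ⟨y, ((LinearEquiv.ofBijective (e n) (he n)).apply_symm_apply _).symm⟩
  ex2 n := by
    intro y
    obtain ⟨z, rfl⟩ := (hf n).2 y
    have h1 : (LinearEquiv.ofBijective (f n) (hf n)).symm (f n z) = z :=
      (LinearEquiv.ofBijective (f n) (hf n)).symm_apply_apply z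
    have h2 : (Q.δ n ∘ₗ (LinearEquiv.ofBijective (f n) (hf n)).symm.toLinearMap) (f n z) =
        Q.δ n z := congrArg (Q.δ n) h1
    rw [h2, Q.ex2 n z]
    constructor
    · rintro ⟨w, rfl⟩
      obtain ⟨w', rfl⟩ := (he n).2 w
      exact ⟨w', hρ n w'⟩
    · rintro ⟨w, hw⟩
      rw [hρ] at hw
      exact ⟨e n w, (hf n).1 hw⟩
  ex3 n := by
    intro x
    have h1 : ((LinearEquiv.ofBijective (e (n + 1)) (he (n + 1))).symm.toLinearMap ∘ₗ
        Q.j (n + 1)) x = 0 ↔ Q.j (n + 1) x = 0 :=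
      (LinearEquiv.ofBijective (e (n + 1)) (he (n + 1))).symm.map_eq_zero_iff
    rw [h1, Q.ex3 n x]
    constructor
    · rintro ⟨y, rfl⟩
      refine ⟨f n y, ?_⟩
      exact congrArg (Q.δ n) ((LinearEquiv.ofBijective (f n) (hf n)).symm_apply_apply y)
    · rintro ⟨y, rfl⟩
      exact ⟨_, rfl⟩
  rR := Q.rR
  rR2 := Q.rR2
  hj n x := by
    apply (he n).1
    have h1 : ∀ y, e n ((LinearEquiv.ofBijective (e n) (he n)).symm y) = y :=
      (LinearEquiv.ofBijective (e n) (he n)).apply_symm_apply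
    rw [hre]
    change rt n (e n ((LinearEquiv.ofBijective (e n) (he n)).symm (Q.j n x))) =
      e n ((LinearEquiv.ofBijective (e n) (he n)).symm (Q.j n (Q.rR n x)))
    rw [h1, h1, Q.hj]
  hδ n y := by
    obtain ⟨z, rfl⟩ := (hf n).2 y
    have h1 : ∀ z, (LinearEquiv.ofBijective (f n) (hf n)).symm (f n z) = z :=
      (LinearEquiv.ofBijective (f n) (hf n)).symm_apply_apply
    change Q.rR (n + 1) (Q.δ n ((LinearEquiv.ofBijective (f n) (hf n)).symm (f n z))) =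
      Q.δ n ((LinearEquiv.ofBijective (f n) (hf n)).symm (rs' n (f n z)))
    rw [h1, ← hrf, h1, Q.hδ]
  chi0 := Q.chi0

/-- a bijective restriction -/
def RelSeq.ofBijective (hb : ∀ n, Function.Bijective (ρ n)) : RelSeq k Ft Fs ρ rt rs where
  R _ := PUnit
  j _ := 0
  δ _ := 0
  ex1 n := by
    intro x
    rw [map_eq_zero_iff _ (hb n).1]
    constructor
    · rintro rfl
      exact ⟨0, rfl⟩
    · rintro ⟨y, rfl⟩
      rfl
  ex2 n := by
    intro y
    exact ⟨fun _ => (hb n).2 y, fun _ => rfl⟩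
  ex3 n := by
    intro x
    exact ⟨fun _ => ⟨0, Subsingleton.elim _ _⟩, fun _ => rfl⟩
  rR _ := LinearMap.id
  rR2 _ _ := rfl
  hj _ _ := by simp
  hδ _ _ := rfl
  chi0 n := by
    have h : ∀ W : Submodule k PUnit, finrank k W = 0 := fun W => Module.finrank_zero_of_subsingleton
    unfold chi
    rw [h, h]
    rfl

end Transport

end Vale.Agent.P216.T695

namespace Vale.Agent.P216.RotS

open AS AS.GCx.Pair DV DV.Circ DV965 Tight923 T695

variable {Λ : Type} [PseudoMetricSpace Λ] {S : GSys Λ} (R : RotS S)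

section

variable (k : Type) [Field k] (p : ℕ) [CharP k p] (hp : 0 < p) (h2 : 2 < p)

omit [CharP k p] in
theorem leS {s t : ℝ} (h : s ≤ t) : (S.P k p hp t).S ≤ (S.P k p hp s).S :=
  Cc_anti (S.mono s t h)

omit [CharP k p] in
theorem leT {s t : ℝ} (h : s ≤ t) : (S.P k p hp t).T ≤ (S.P k p hp s).T :=
  Zr_anti (S.mono s t h) (S.mono s t h)

omit [CharP k p] in
theorem leWS {s t : ℝ} (h : s ≤ t) : (S.P k p hp t).S ≤ (S.W k p hp h).S := le_rfl

omit [CharP k p] in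
theorem leWT {s t : ℝ} (h : s ≤ t) : (S.P k p hp t).T ≤ (S.W k p hp h).T :=
  Zr_anti le_rfl (S.mono s t h)

omit [CharP k p] in
theorem leWS' {s t : ℝ} (h : s ≤ t) : (S.W k p hp h).S ≤ (S.P k p hp s).S :=
  Cc_anti (S.mono s t h)

omit [CharP k p] in
theorem leWT' {s t : ℝ} (h : s ≤ t) : (S.W k p hp h).T ≤ (S.P k p hp s).T :=
  Zr_anti (S.mono s t h) le_rfl

omit [CharP k p] in
theorem leQS {s t : ℝ} (h : s ≤ t) : (S.Q k p hp h).S ≤ (S.P k p hp t).S := Zr_le_Cc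

omit [CharP k p] in
theorem leQT {s t : ℝ} (h : s ≤ t) : (S.Q k p hp h).T ≤ (S.P k p hp t).T := le_rfl

/-- restriction `F (X t) → F (X s)` -/
noncomputable def resS {s t : ℝ} (h : s ≤ t) (n : ℕ) :
    (R.pst k p hp h2 t).F n →ₗ[k] (R.pst k p hp h2 s).F n :=
  PSt.resF (R.pst k p hp h2 t) (R.pst k p hp h2 s) (leS k p hp h) (leT k p hp h) n

/-- restriction to the pair `W` -/
noncomputable def resW {s t : ℝ} (h : s ≤ t) (n : ℕ) :
    (R.pst k p hp h2 t).F n →ₗ[k] (R.pstW k p hp h2 h).F n :=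
  PSt.resF (R.pst k p hp h2 t) (R.pstW k p hp h2 h) (leWS k p hp h) (leWT k p hp h) n

/-- restriction from the pair `W` -/
noncomputable def resW' {s t : ℝ} (h : s ≤ t) (n : ℕ) :
    (R.pstW k p hp h2 h).F n →ₗ[k] (R.pst k p hp h2 s).F n :=
  PSt.resF (R.pstW k p hp h2 h) (R.pst k p hp h2 s) (leWS' k p hp h) (leWT' k p hp h) n

/-- the map from the relative group -/
noncomputable def incQ {s t : ℝ} (h : s ≤ t) (n : ℕ) :
    (R.pstQ k p hp h2 h).F n →ₗ[k] (R.pst k p hp h2 t).F n :=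
  PSt.resF (R.pstQ k p hp h2 h) (R.pst k p hp h2 t) (leQS k p hp h) (leQT k p hp h) n

/-- the connecting map -/
noncomputable def delQ {s t : ℝ} (h : s ≤ t) (n : ℕ) :
    (R.pstW k p hp h2 h).F n →ₗ[k] (R.pstQ k p hp h2 h).F (n + 1) :=
  (R.circ k p hp h2).delK (R.pst k p hp h2 t).tS (R.pstW k p hp h2 h).tT
    (R.pst k p hp h2 t).tT n

theorem resW'_resW {s t : ℝ} (h : s ≤ t) (n : ℕ) (x : (R.pst k p hp h2 t).F n) :
    R.resW' k p hp h2 h n (R.resW k p hp h2 h n x) = R.resS k p hp h2 h n x := by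
  refine Subtype.ext ?_
  refine (PSt.resF_coe _ _ _ _ n _).trans ?_
  refine Eq.trans ?_ (PSt.resF_coe _ _ _ _ n _).symm
  have h1 := PSt.resF_coe (R.pst k p hp h2 t) (R.pstW k p hp h2 h) (leWS k p hp h)
    (leWT k p hp h) n x
  refine (congrArg (GCx.Pair.resF (leWS' k p hp h) (leWT' k p hp h) (n + 1)) h1).trans ?_
  obtain ⟨c, hc, e⟩ := H.exists_mk x.1
  rw [← e]
  rfl

theorem resW'_bij {s t : ℝ} (h : s ≤ t) (n : ℕ) :
    Function.Bijective (R.resW' k p hp h2 h n) :=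
  PSt.resF_bij _ _ _ _ (fun n => resF_bijective (P := S.W k p hp h) (P' := S.P k p hp s)
    (leWS' k p hp h) (leWT' k p hp h) (S.W_bijective h) n) n

/-- no critical level: the restriction on `F` is bijective -/
theorem resS_bij {s t : ℝ} (hs : 0 < s) (h : s ≤ t) (hcrit : ∀ x ∈ Icc s t, x ∉ Crit S.ℓ)
    (n : ℕ) : Function.Bijective (R.resS k p hp h2 h n) :=
  PSt.resF_bij _ _ _ _ (fun n => resF_bijective (P := S.P k p hp t) (P' := S.P k p hp s)
    (leS k p hp h) (leT k p hp h)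
    (fun n => S.res_bijective hs h hcrit (S.mono s t h) n) n) n

theorem resW_eq_zero {s t : ℝ} (h : s ≤ t) (n : ℕ) (x : (R.pst k p hp h2 t).F n) :
    R.resW k p hp h2 h n x = 0 ↔
      Hinc (le_refl (_ : AS.Sub (S.sym k p hp).gcx.Tot))
        (TotS_mono (S.P k p hp t).hT (S.W k p hp h).hT (leWT k p hp h)) (n + 1) x.1 = 0 := by
  rw [Subtype.ext_iff]
  refine Iff.trans (Iff.of_eq (congrArg (· = _) (PSt.resF_coe _ _ _ _ n x))) ?_
  obtain ⟨c, hc, e⟩ := H.exists_mk x.1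
  rw [← e]
  exact (H.mk_eq_zero (C := (S.sym k p hp).gcx.Tot)).trans
    (H.mk_eq_zero (C := (S.sym k p hp).gcx.Tot)).symm

theorem exQ1 {s t : ℝ} (h : s ≤ t) (n : ℕ) :
    Function.Exact (R.incQ k p hp h2 h n) (R.resW k p hp h2 h n) := by
  have h1 := (R.circ k p hp h2).exact_midK (R.pst k p hp h2 t).tS (R.pstW k p hp h2 h).tT
    (R.pst k p hp h2 t).tT
    (TotS_mono (S.P k p hp t).hT (S.W k p hp h).hT (leWT k p hp h))
    (TotS_mono (S.W k p hp h).hT (S.P k p hp t).hS (leQS k p hp h)) n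
  intro x
  have e : ∀ y, R.incQ k p hp h2 h n y = (R.circ k p hp h2).incK (R.pstW k p hp h2 h).tT
      (R.pst k p hp h2 t).tT (R.pst k p hp h2 t).tS (R.pst k p hp h2 t).tT
      (TotS_mono (S.W k p hp h).hT (S.P k p hp t).hS (leQS k p hp h)) le_rfl n y := fun y =>
    Subtype.ext (PSt.resF_coe _ _ _ _ n y)
  refine (R.resW_eq_zero k p hp h2 h n x).trans (Iff.trans ?_ ((h1 x).trans ?_))
  · exact ⟨fun hx => Subtype.ext hx, fun hx => congrArg Subtype.val hx⟩
  · exact ⟨fun ⟨y, hy⟩ => ⟨y, (e y).trans hy⟩, fun ⟨y, hy⟩ => ⟨y, (e y).symm.trans hy⟩⟩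

theorem exQ2 {s t : ℝ} (h : s ≤ t) (n : ℕ) :
    Function.Exact (R.resW k p hp h2 h n) (R.delQ k p hp h2 h n) := by
  have h1 := (R.circ k p hp h2).exact_delK (R.pst k p hp h2 t).tS (R.pstW k p hp h2 h).tT
    (R.pst k p hp h2 t).tT
    (TotS_mono (S.P k p hp t).hT (S.W k p hp h).hT (leWT k p hp h))
    (TotS_mono (S.W k p hp h).hT (S.P k p hp t).hS (leQS k p hp h)) n
  intro x
  refine (h1 x).trans ?_
  constructor
  · rintro ⟨y, hy⟩
    exact ⟨y, (Subtype.ext (PSt.resF_coe _ _ _ _ n y)).trans hy⟩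
  · rintro ⟨y, hy⟩
    exact ⟨y, (Subtype.ext (PSt.resF_coe _ _ _ _ n y)).symm.trans hy⟩

theorem exQ3 {s t : ℝ} (h : s ≤ t) (n : ℕ) :
    Function.Exact (R.delQ k p hp h2 h n) (R.incQ k p hp h2 h (n + 1)) := by
  have h1 := (R.circ k p hp h2).exact_incK (R.pst k p hp h2 t).tS (R.pstW k p hp h2 h).tT
    (R.pst k p hp h2 t).tT
    (TotS_mono (S.P k p hp t).hT (S.W k p hp h).hT (leWT k p hp h))
    (TotS_mono (S.W k p hp h).hT (S.P k p hp t).hS (leQS k p hp h)) n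
  intro x
  have e : R.incQ k p hp h2 h (n + 1) x = (R.circ k p hp h2).incK (R.pstW k p hp h2 h).tT
      (R.pst k p hp h2 t).tT (R.pst k p hp h2 t).tS (R.pst k p hp h2 t).tT
      (TotS_mono (S.W k p hp h).hT (S.P k p hp t).hS (leQS k p hp h)) le_rfl (n + 1) x :=
    Subtype.ext (PSt.resF_coe _ _ _ _ (n + 1) x)
  exact Iff.trans ⟨fun hx => e.symm.trans hx, fun hx => e.trans hx⟩ (h1 x)

/-- the reversal on `F (X t)` -/
noncomputable def rS (t : ℝ) (n : ℕ) : (R.pst k p hp h2 t).F n →ₗ[k] (R.pst k p hp h2 t).F n :=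
  (R.pst k p hp h2 t).rk (S.P_rstable k p hp t) (R.rcomp k p hp h2) n

theorem gysInv_rF (t : ℝ) : (R.gysInv k p hp h2 t).rF = R.rS k p hp h2 t := rfl

theorem gysInv_rE (t : ℝ) (n : ℕ) :
    (R.gysInv k p hp h2 t).rE n = rH (S.P_rstable k p hp t) n := rfl

theorem rS_resS {s t : ℝ} (h : s ≤ t) (n : ℕ) (x : (R.pst k p hp h2 t).F n) :
    R.rS k p hp h2 s n (R.resS k p hp h2 h n x) = R.resS k p hp h2 h n (R.rS k p hp h2 t n x) :=
  PSt.rk_resF _ _ _ _ _ _ _ n x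

/-- The exact sequence of the pair `(X t, X s)`, with `X s` in the world `X t`. -/
noncomputable def relW {s t : ℝ} (h : s ≤ t)
    (hchi : ∀ n, chi ((R.pstQ k p hp h2 h).rk (S.Q_rstable k p hp h) (R.rcomp k p hp h2) n) = 0) :
    RelSeq k (fun n => (R.pst k p hp h2 t).F n) (fun n => (R.pstW k p hp h2 h).F n)
      (R.resW k p hp h2 h) (R.rS k p hp h2 t)
      ((R.pstW k p hp h2 h).rk (S.W_rstable h) (R.rcomp k p hp h2)) where
  R n := (R.pstQ k p hp h2 h).F n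
  j n := R.incQ k p hp h2 h n
  δ n := R.delQ k p hp h2 h n
  ex1 n := R.exQ1 k p hp h2 h n
  ex2 n := R.exQ2 k p hp h2 h n
  ex3 n := R.exQ3 k p hp h2 h n
  rR n := (R.pstQ k p hp h2 h).rk (S.Q_rstable k p hp h) (R.rcomp k p hp h2) n
  rR2 n x := ((R.pstQ k p hp h2 h).inv (S.Q_rstable k p hp h) (R.rcomp k p hp h2)).rF2 n x
  hj n x := PSt.rk_resF (R.pstQ k p hp h2 h) (R.pst k p hp h2 t) (leQS k p hp h)
    (leQT k p hp h)
    (S.Q_rstable k p hp h) (S.P_rstable k p hp t) (R.rcomp k p hp h2) n x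
  hδ n x := by
    refine Subtype.ext ?_
    rw [PSt.rk_coe]
    have h1 := rF_delF (S.P k p hp t).T (S.W k p hp h).T (S.P k p hp t).S (S.P k p hp t).hT
      (S.W k p hp h).hT (S.P k p hp t).hS (leWT k p hp h) (leQS k p hp h)
      (S.sym k p hp).rev (S.W_rstable h) (S.Q_rstable k p hp h) (n + 1) x.1
    have h3 := (delF (S.P k p hp t).hT (S.W k p hp h).hT (S.P k p hp t).hS (leWT k p hp h)
      (leQS k p hp h) (n + 1)).map_neg (rF (S.W_rstable h) (n + 1) x.1)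
    exact (congrArg Neg.neg h1).trans h3.symm
  chi0 := hchi

/-- The exact sequence of the pair `(X t, X s)`. -/
noncomputable def relS {s t : ℝ} (h : s ≤ t)
    (hchi : ∀ n, chi ((R.pstQ k p hp h2 h).rk (S.Q_rstable k p hp h) (R.rcomp k p hp h2) n) = 0) :
    RelSeq k (fun n => (R.pst k p hp h2 t).F n) (fun n => (R.pst k p hp h2 s).F n)
      (R.resS k p hp h2 h) (R.rS k p hp h2 t) (R.rS k p hp h2 s) :=
  (R.relW k p hp h2 h hchi).transport (fun _ => LinearMap.id) (R.resW' k p hp h2 h)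
    (fun _ => Function.bijective_id) (R.resW'_bij k p hp h2 h)
    (fun n x => (R.resW'_resW k p hp h2 h n x).symm) (fun _ _ => rfl)
    (fun n x => (PSt.rk_resF (R.pstW k p hp h2 h) (R.pst k p hp h2 s)
      (leWS' k p hp h) (leWT' k p hp h)
      (S.W_rstable h) (S.P_rstable k p hp s) (R.rcomp k p hp h2) n x).symm)

theorem resS_resS {a b c : ℝ} (h : a ≤ b) (h' : b ≤ c) (n : ℕ) (x : (R.pst k p hp h2 c).F n) :
    R.resS k p hp h2 h n (R.resS k p hp h2 h' n x) = R.resS k p hp h2 (h.trans h') n x := by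
  refine Subtype.ext ?_
  refine (PSt.resF_coe _ _ _ _ n _).trans ?_
  refine Eq.trans ?_ (PSt.resF_coe _ _ _ _ n _).symm
  have h1 := PSt.resF_coe (R.pst k p hp h2 c) (R.pst k p hp h2 b) (leS k p hp h')
    (leT k p hp h') n x
  refine (congrArg (GCx.Pair.resF (leS k p hp h) (leT k p hp h) (n + 1)) h1).trans ?_
  obtain ⟨c, hc, e⟩ := H.exists_mk x.1
  rw [← e]
  rfl

theorem resS_self {a : ℝ} (h : a ≤ a) (n : ℕ) (x : (R.pst k p hp h2 a).F n) :
    R.resS k p hp h2 h n x = x := by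
  refine Subtype.ext ?_
  refine (PSt.resF_coe _ _ _ _ n _).trans ?_
  obtain ⟨c, hc, e⟩ := H.exists_mk x.1
  rw [← e]
  rfl

end

end Vale.Agent.P216.RotS

namespace Vale.Agent.P216.RotS

open AS AS.GCx.Pair DV DV.Circ DV965 Tight923 T695

variable {Λ : Type} [MetricSpace Λ] {S : GSys Λ} (R : RotS S)

/-- **The field `rel`**: the exact sequence of the pair `(X t, X s)` in `S¹`-cohomology, with the
reversal, when there is at most one critical level between the regular levels `s ≤ t`. -/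
theorem rel_nonempty (p : ℕ) [Fact p.Prime] (hp : 0 < p) (h2 : 2 < p)
    (fin : ∀ t, 0 < t → t ∉ Crit S.ℓ → ∀ n, Module.Finite (ZMod p) (S.V (ZMod p) t n))
    {s t : ℝ} (h : s ≤ t) (hs : 0 < s) (hsc : s ∉ Crit S.ℓ) (htc : t ∉ Crit S.ℓ)
    (hone : (Crit S.ℓ ∩ Ioo s t).Subsingleton) :
    Nonempty (RelSeq (ZMod p) (fun n => (R.pst (ZMod p) p hp h2 t).F n)
      (fun n => (R.pst (ZMod p) p hp h2 s).F n) (R.resS (ZMod p) p hp h2 h)
      (R.rS (ZMod p) p hp h2 t) (R.rS (ZMod p) p hp h2 s)) := by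
  rcases (Crit S.ℓ ∩ Ioo s t).eq_empty_or_nonempty with h0 | ⟨c, hc, hcI⟩
  · refine ⟨RelSeq.ofBijective fun n => R.resS_bij (ZMod p) p hp h2 hs h (fun x hx hxc => ?_) n⟩
    rcases eq_or_lt_of_le hx.1 with rfl | h3
    · exact hsc hxc
    rcases eq_or_lt_of_le hx.2 with rfl | h4
    · exact htc hxc
    have : x ∈ Crit S.ℓ ∩ Ioo s t := ⟨hxc, h3, h4⟩
    rw [h0] at this
    exact this
  · obtain ⟨e₀, he₀, hec, hbal⟩ := S.crossBal_prop p hp h2 c (hs.trans hcI.1)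
    obtain ⟨e, he, hlt⟩ : ∃ e : ℝ, 0 < e ∧ e < min e₀ (min (c - s) (t - c)) :=
      exists_between (lt_min he₀ (lt_min (by linarith [hcI.1]) (by linarith [hcI.2])))
    have l1 := lt_of_lt_of_le hlt (min_le_left _ _)
    have l2 := lt_of_lt_of_le (lt_of_lt_of_le hlt (min_le_right _ _)) (min_le_left _ _)
    have l3 := lt_of_lt_of_le (lt_of_lt_of_le hlt (min_le_right _ _)) (min_le_right _ _)
    have hcr : ∀ x, s ≤ x → x ≤ t → x ≠ c → x ∉ Crit S.ℓ := by
      intro x h5 h6 h7 hx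
      rcases eq_or_lt_of_le h5 with rfl | h5
      · exact hsc hx
      rcases eq_or_lt_of_le h6 with rfl | h6
      · exact htc hx
      exact h7 (hone ⟨hx, h5, h6⟩ ⟨hc, hcI⟩)
    have c1 : c - e ∉ Crit S.ℓ := hcr _ (by linarith) (by linarith) (by linarith)
    have c2 : c + e ∉ Crit S.ℓ := hcr _ (by linarith) (by linarith) (by linarith)
    have f1 := fin (c - e) (by linarith) c1
    have f2 := fin (c + e) (by linarith) c2
    have hce : c - e ≤ c + e := by linarith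
    have f3 := S.finite_Q (k := ZMod p) (p := p) (hp := hp) hce f2 f1
    have f4 : ∀ n, FiniteDimensional (ZMod p) ((S.Q (ZMod p) p hp hce).FF n) :=
      (S.Q (ZMod p) p hp hce).finite_F f3
    have hchi := R.chi_relF (ZMod p) p hp h2 hce ((hbal e he l1.le f3).2)
    have hse : s ≤ c - e := by linarith
    have hte : c + e ≤ t := by linarith
    refine ⟨(R.relS (ZMod p) p hp h2 hce hchi).transport (R.resS (ZMod p) p hp h2 hte)
      (R.resS (ZMod p) p hp h2 hse) ?_ ?_ ?_ ?_ ?_⟩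
    · exact R.resS_bij (ZMod p) p hp h2 (by linarith) hte
        fun x hx => hcr x (by linarith [hx.1]) hx.2 (by linarith [hx.1])
    · exact R.resS_bij (ZMod p) p hp h2 hs hse
        fun x hx => hcr x hx.1 (by linarith [hx.2]) (by linarith [hx.2])
    · intro n x
      rw [R.resS_resS, R.resS_resS]
    · intro n x
      exact (R.rS_resS (ZMod p) p hp h2 hte n x).symm
    · intro n x
      exact (R.rS_resS (ZMod p) p hp h2 hse n x).symm

end Vale.Agent.P216.RotS
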