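import Vale.Agent.P216.H670.Theta

/-!
# The reversal on `Tot S`, `Tot U`, the connecting map; `A = ∑ i gⁱ`; traces of restrictions
-/

open Module LinearMap

namespace Vale.Agent.P216.DV

open Vale.Agent.P216.AS

variable {k : Type} [Field k] {C : Amb k} {G : GCx C} {R : Rev G}

namespace Circ

theorem rtst_TotS {S : Sub C} (hS : G.Stable S) (hR : R.Stable S) : RTSt R (G.TotS S hS) where
  R_mem n _ hc := hR.TS hS n hc
  N_mem n c hc := ⟨fun q hq => (S.S q).smul_mem _ (hc.1 q hq), fun q hq => by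
    rw [Nop_apply, hc.2 q hq, smul_zero]⟩

theorem rtst_TotU {P : G.Pair} (hR : P.RStable R) :
    RTSt R (G.TotU P.S P.T P.hS P.hT P.le) where
  R_mem n _ hc := hR.TU n hc
  N_mem n c hc := ⟨fun q hq => (P.S.S q).smul_mem _ (hc.1 q hq),
    fun q hq hq' => (P.T.S q).smul_mem _ (hc.2.1 q hq hq'), fun q hq => by
      rw [Nop_apply, hc.2.2 q hq, smul_zero]⟩

/-- `rT` on `FF` is the library reversal. -/
theorem rT_eq_rF {P : G.Pair} (h : P.RStable R) (n : ℕ) :
    rT (rtst_TotS P.hS h.S) (rtst_TotS P.hT h.T) n = GCx.Pair.rF h n := rfl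

/-- `rT` on `EE` is the library reversal. -/
theorem rT_eq_rE {P : G.Pair} (h : P.RStable R) (n : ℕ) :
    rT (rtst_TotS P.hS h.S) (rtst_TotU h) n = GCx.Pair.rE h n := rfl

/-- **The connecting map `E (n + 1) → F n` anticommutes with the reversal.** -/
theorem δ_rE {P : G.Pair} (h : P.RStable R) (n : ℕ) (x : P.EE (n + 1)) :
    P.δ n (GCx.Pair.rE h (n + 1) x) = - GCx.Pair.rF h n (P.δ n x) := by
  obtain ⟨c, hc, rfl⟩ := H.exists_mk x
  obtain ⟨y, hy, hcy⟩ := P.exists_δ hc
  rw [P.δ_mk hc hy hcy]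
  have hc' : R.RT (n + 1) c ∈
      Zc (G.TotS P.S P.hS) (G.TotU P.S P.T P.hS P.hT P.le) (n + 1) :=
    RT_isZ (rtst_TotS P.hS h.S) (rtst_TotU h) (n + 1) c hc
  have hy' : - R.RT n y ∈ Zc (G.TotS P.S P.hS) (G.TotS P.T P.hT) n :=
    Submodule.neg_mem _ (RT_isZ (rtst_TotS P.hS h.S) (rtst_TotS P.hT h.T) n y hy)
  have e : G.D (n + 1) (R.RT (n + 1) c) - - R.RT n y ∈ (G.TotS P.T P.hT).S (n + 2) := by
    rw [R.D_RT, show - R.RT n y = R.RT (n + 2) y from (R.RT_add_two n y).symm, ← map_sub]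
    exact h.T.TS P.hT _ hcy
  have h1 : P.δ n (GCx.Pair.rE h (n + 1) (H.mk c hc)) = H.mk (C := G.Tot) (- R.RT n y) hy' :=
    P.δ_mk hc' hy' e
  rw [h1]
  rfl

/-- `A = ∑ i gⁱ` anticommutes with the reversal when `g ^ p = 1` and `p = 0` in `k`. -/
theorem r_sum_g {V : Type} [AddCommGroup V] [Module k V] (g r : V →ₗ[k] V) (p : ℕ)
    (hp : (p : k) = 0) (hg : ∀ x, (g ^ p) x = x) (hgrg : ∀ x, g (r (g x)) = r x) (x : V) :
    r (∑ i ∈ Finset.range p, (i : k) • (g ^ i) x) =
      - ∑ i ∈ Finset.range p, (i : k) • (g ^ i) (r x) := by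
  have hsucc : ∀ i y, (g ^ (i + 1)) y = g ((g ^ i) y) := fun i y => by
    rw [pow_succ', Module.End.mul_apply]
  have hsucc' : ∀ i y, (g ^ (i + 1)) y = (g ^ i) (g y) := fun i y => by
    rw [pow_succ, Module.End.mul_apply]
  have hadd : ∀ i j y, (g ^ (i + j)) y = (g ^ i) ((g ^ j) y) := fun i j y => by
    rw [pow_add, Module.End.mul_apply]
  have hpow : ∀ i y, (g ^ i) (r ((g ^ i) y)) = r y := by
    intro i
    induction i with
    | zero => intro y; simp
    | succ i ih =>
      intro y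
      rw [hsucc i y, hsucc' i, hgrg, ih]
  have hr : ∀ i ≤ p, ∀ y, r ((g ^ i) y) = (g ^ (p - i)) (r y) := by
    intro i hi y
    have h1 := hadd (p - i) i (r ((g ^ i) y))
    rw [Nat.sub_add_cancel hi, hg, hpow] at h1
    exact h1
  cases p with
  | zero => simp
  | succ p =>
    rw [map_sum, Finset.sum_range_succ', Finset.sum_range_succ' (n := p)]
    simp only [map_smul, Nat.cast_zero, zero_smul, add_zero, map_zero]
    rw [← Finset.sum_range_reflect (fun i => ((i + 1 : ℕ) : k) • (g ^ (i + 1)) (r x)),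
      ← Finset.sum_neg_distrib]
    refine Finset.sum_congr rfl fun i hi => ?_
    rw [Finset.mem_range] at hi
    rw [hr (i + 1) (by omega), ← neg_smul]
    have e1 : p + 1 - (i + 1) = p - 1 - i + 1 := by omega
    rw [e1]
    congr 1
    have e2 : (((p - 1 - i + 1 : ℕ) : k)) = ((p + 1 : ℕ) : k) - ((i + 1 : ℕ) : k) := by
      rw [← Nat.cast_sub (by omega)]
      congr 1
      omega
    rw [e2, hp, zero_sub, neg_neg]

end Circ

open Vale.Agent.P216.Tight923

section Restrict

variable {A : Type*} [AddCommGroup A] [Module k A]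

/-- the trace of a restriction -/
theorem chi_restrict (r : A →ₗ[k] A) (S : Submodule k A) (h : ∀ x ∈ S, r x ∈ S) :
    chi (r.restrict h) = chiOn r S := by
  have key : ∀ η : k, finrank k (eig (r.restrict h) η) =
      finrank k (S ⊓ eig r η : Submodule k A) := by
    intro η
    have e : (eig (r.restrict h) η).map S.subtype = S ⊓ eig r η := by
      ext x
      constructor
      · rintro ⟨⟨y, hy⟩, h1, rfl⟩
        refine ⟨hy, mem_eig.2 ?_⟩
        have := mem_eig.1 h1
        exact congrArg Subtype.val this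
      · rintro ⟨h1, h3⟩
        refine ⟨⟨x, h1⟩, mem_eig.2 (Subtype.ext ?_), rfl⟩
        exact mem_eig.1 h3
    rw [← e]
    exact (Submodule.equivMapOfInjective _ (Submodule.injective_subtype S) _).finrank_eq
  unfold chi chiOn
  rw [key, key]

theorem chi_neg (r : A →ₗ[k] A) : chi (-r) = - chi r := by
  have key : ∀ η : k, eig (-r) η = eig r (-η) := by
    intro η
    ext x
    rw [mem_eig, mem_eig, LinearMap.neg_apply, neg_smul]
    exact neg_eq_iff_eq_neg
  unfold chi
  rw [key, key, neg_neg]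
  ring

theorem chiOn_neg (r : A →ₗ[k] A) (S : Submodule k A) : chiOn (-r) S = - chiOn r S := by
  have key : ∀ η : k, eig (-r) η = eig r (-η) := by
    intro η
    ext x
    rw [mem_eig, mem_eig, LinearMap.neg_apply, neg_smul]
    exact neg_eq_iff_eq_neg
  unfold chiOn
  rw [key, key, neg_neg]
  ring

end Restrict

end Vale.Agent.P216.DV
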