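import Vale.Agent.P216.DV706.Gys
import Vale.Agent.P216.H670.Theta2

/-!
# The reversal on the Gysin sequence of `F = ker V`
-/

open Module LinearMap

namespace Vale.Agent.P216.DV

open Vale.Agent.P216.AS Vale.Agent.P216.Tight923

variable {k : Type} [Field k] {C : Amb k} {G : GCx C} {X : Circ G} {P : G.Pair} {R : Rev G}

namespace Circ.PSt

variable (h : X.PSt P) (hR : P.RStable R) (hA : X.RComp R)

include hA in
/-- The reversal anticommutes with `V` on `FF`. -/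
theorem rF_VF (n : ℕ) (x : P.FF n) :
    GCx.Pair.rF hR (n + 1) (h.VF n x) = - h.VF n (GCx.Pair.rF hR n x) :=
  rT_V hA h.tS h.tT (rtst_TotS P.hS hR.S) (rtst_TotS P.hT hR.T) n x

include hA in
/-- The reversal anticommutes with `V` on `EE`. -/
theorem rE_VE (n : ℕ) (x : P.EE n) :
    GCx.Pair.rE hR (n + 1) (h.VE n x) = - h.VE n (GCx.Pair.rE hR n x) :=
  rT_V hA h.tS h.tstU (rtst_TotS P.hS hR.S) (rtst_TotU hR) n x

include hA in
theorem rF_mem {n : ℕ} {x : P.FF (n + 1)} (hx : x ∈ h.F n) :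
    GCx.Pair.rF hR (n + 1) x ∈ h.F n := by
  rw [h.mem_F] at hx ⊢
  have := h.rF_VF hR hA (n + 1) x
  rw [hx, map_zero] at this
  exact neg_eq_zero.mp this.symm

/-- the reversal on `F n`; the sign is there because `F n` is `v` times the equivariant
cohomology in degree `n` -/
def rk (n : ℕ) : h.F n →ₗ[k] h.F n :=
  (- GCx.Pair.rF hR (n + 1)).restrict fun x hx =>
    Submodule.neg_mem _ (h.rF_mem hR hA hx)

@[simp] theorem rk_coe (n : ℕ) (x : h.F n) :
    (h.rk hR hA n x : P.FF (n + 1)) = - GCx.Pair.rF hR (n + 1) x.1 := rfl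

/-- **The involutions on the Gysin sequence.** -/
noncomputable def inv : Inv h.gys where
  rF := h.rk hR hA
  rE := GCx.Pair.rH hR
  rF2 n x := Subtype.ext (by
    rw [rk_coe, rk_coe, map_neg, neg_neg]
    exact (GCx.Pair.level hR).rF_rF (n + 1) x.1)
  rE2 n x := (GCx.Pair.level hR).rH_rH n x
  hπ n x := by
    refine h.a_inj n ?_
    change P.a n (GCx.Pair.rH hR n (h.πF n x)) = P.a n (h.πF n (h.rk hR hA n x))
    have h1 : P.a n (GCx.Pair.rH hR n (h.πF n x)) =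
        - GCx.Pair.rE hR (n + 1) (P.a n (h.πF n x)) := (GCx.Pair.level hR).a_rH n _
    have h2 : P.π (n + 1) (GCx.Pair.rF hR (n + 1) x.1) =
        GCx.Pair.rE hR (n + 1) (P.π (n + 1) x.1) := (GCx.Pair.level hR).π_rF (n + 1) x.1
    rw [h1, h.a_πF, h.a_πF, rk_coe, map_neg, h2]
  hu n x := Subtype.ext (by
    change - GCx.Pair.rF hR (n + 2 + 1) (P.u (n + 1) x.1) =
      - (P.u (n + 1) (- GCx.Pair.rF hR (n + 1) x.1))
    have h1 : P.u (n + 1) (GCx.Pair.rF hR (n + 1) x.1) =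
      - GCx.Pair.rF hR (n + 1 + 2) (P.u (n + 1) x.1) := (GCx.Pair.level hR).u_rF (n + 1) x.1
    rw [map_neg, neg_neg, h1])
  hd n x := Subtype.ext (by
    change - GCx.Pair.rF hR (n + 1) (P.δ (n + 1) (P.a (n + 1) x)) =
      - P.δ (n + 1) (P.a (n + 1) (GCx.Pair.rH hR (n + 1) x))
    have h1 : P.a (n + 1) (GCx.Pair.rH hR (n + 1) x) =
      - GCx.Pair.rE hR (n + 1 + 1) (P.a (n + 1) x) := (GCx.Pair.level hR).a_rH (n + 1) x
    rw [h1, map_neg, neg_neg, δ_rE hR (n + 1)])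

theorem inv_rE (n : ℕ) : (h.inv hR hA).rE n = GCx.Pair.rH hR n := rfl
theorem inv_rF (n : ℕ) : (h.inv hR hA).rF n = h.rk hR hA n := rfl

theorem gys_u (n : ℕ) : h.gys.u n = h.uF n := rfl
theorem gys_π (n : ℕ) : h.gys.π n = h.πF n := rfl
theorem gys_d (n : ℕ) : h.gys.d n = h.dF n := rfl

/-- **The traces on `F` vanish when the traces on `FF` do.** -/
theorem chi_rk (h2 : (2 : k) ≠ 0) [∀ n, FiniteDimensional k (P.FF n)]
    (h0 : ∀ n, chi (GCx.Pair.rF hR n) = 0) (n : ℕ) : chi (h.rk hR hA n) = 0 := by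
  have h1 : chiOn (GCx.Pair.rF hR (n + 1)) (h.F n) = 0 :=
    chiOn_kV h2 hA h.tS h.tT (rtst_TotS P.hS hR.S) (rtst_TotS P.hT hR.T) h0 n
  have h3 : chi (h.rk hR hA n) = chiOn (- GCx.Pair.rF hR (n + 1)) (h.F n) :=
    chi_restrict _ _ _
  rw [h3, chiOn_neg, h1, neg_zero]

end Circ.PSt

end Vale.Agent.P216.DV
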