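import Vale.Agent.P216.H670.CircAS
import Vale.Agent.P216.H670.InvG
import Vale.Agent.P216.AS.End707
import Vale.Agent.P216.Spine.Build2

/-!
# The circle action on a `GSys`
-/

open Set Finset
open Module (finrank)

namespace Vale.Agent.P216

open AS DV DV965 Tight923

/-- Real rotations on a `GSys`. -/
structure RotS {Λ : Type} [PseudoMetricSpace Λ] (S : GSys Λ) where
  R : ℝ → Λ → Λ
  zero : ∀ x, R 0 x = x
  add : ∀ a b x, R a (R b x) = R (a + b) x
  rot : ∀ p : ℕ, 0 < p → ∀ x, R (1 / p : ℝ) x = S.rot p x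
  tau : ∀ a x, R a (S.τ x) = S.τ (R a x)
  theta : ∀ a x, S.θ (R a x) = R (-a) (S.θ x)
  mem : ∀ a s, MapsTo (R a) (S.X s) (S.X s)
  uc : ∀ s, ∀ ε > 0, ∃ δ > 0, ∀ a b : ℝ, ∀ x ∈ S.X s, ∀ y ∈ S.X s, |a - b| < δ →
    dist x y < δ → dist (R a x) (R b y) < ε

namespace RotS

variable {Λ : Type} [PseudoMetricSpace Λ] {S : GSys Λ} (R : RotS S)

/-- the arc from the identity to the rotation by `1 / p` -/
noncomputable def arc (p : ℕ) (r : ℝ) (x : Λ) : Λ := R.R (r / p) x

theorem isArc (k : Type) [Field k] (p : ℕ) (hp : 0 < p) :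
    Arc (S.sym k p hp).g (R.arc p) where
  zero x := by
    change R.R (0 / p) x = x
    rw [zero_div, R.zero]
  one x := R.rot p hp x
  comm r _ x := by
    change R.R (r / p) (S.rot p x) = S.rot p (R.R (r / p) x)
    rw [← R.rot p hp, ← R.rot p hp, R.add, R.add, add_comm]

theorem arcGood (k : Type) [Field k] (p : ℕ) (hp : 0 < p) (s : ℝ) :
    ArcGood (S.sym k p hp) (R.arc p) (S.X s) where
  maps r _ x hx := R.mem (r / p) s hx
  uc := by
    intro ε hε
    obtain ⟨δ, hδ, h⟩ := R.uc s ε hε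
    refine ⟨δ, hδ, fun r _ r' _ x hx y hy h1 h2 => h _ _ x hx y hy ?_ h2⟩
    have hp1 : (1 : ℝ) ≤ p := by exact_mod_cast hp
    rw [← sub_div, abs_div, Nat.abs_cast]
    exact (div_le_self (abs_nonneg _) hp1).trans_lt h1
  comm r _ _ x _ := R.tau (r / p) x

section

variable (k : Type) [Field k] (p : ℕ) [CharP k p] (hp : 0 < p) (h2 : 2 < p)

/-- the circle data -/
noncomputable def circ : Circ (S.sym k p hp).gcx := circSym (S.sym k p hp) h2 (R.isArc k p hp)

theorem rcomp : (R.circ k p hp h2).RComp (S.sym k p hp).rev :=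
  circSym_rcomp (S.sym k p hp) h2 (R.isArc k p hp)

/-- the pair of `X s` -/
theorem pst (s : ℝ) : (R.circ k p hp h2).PSt (S.P k p hp s) :=
  pst_PA _ h2 _ (S.good k p hp s) (R.arcGood k p hp s)

/-- the pair of `(X t, X s)` -/
theorem pstQ {s t : ℝ} (h : s ≤ t) : (R.circ k p hp h2).PSt (S.Q k p hp h) :=
  pst_PR _ h2 _ _ (R.arcGood k p hp t) _ _ _ (R.arcGood k p hp t).maps
    (R.arcGood k p hp s).maps

/-- the pair of `X s` in the world `X t` -/
theorem pstW {s t : ℝ} (h : s ≤ t) : (R.circ k p hp h2).PSt (S.W k p hp h) :=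
  pst_PM _ h2 _ _ (R.arcGood k p hp t) _ (R.arcGood k p hp s).maps

/-- the involutions on the Gysin sequence of `X s` -/
noncomputable def gysInv (s : ℝ) : Inv (R.pst k p hp h2 s).gys :=
  (R.pst k p hp h2 s).inv (S.P_rstable k p hp s) (R.rcomp k p hp h2)

/-- the relative traces on the equivariant cohomology vanish across a level -/
theorem chi_relF {s t : ℝ} (h : s ≤ t)
    [∀ n, FiniteDimensional k ((S.Q k p hp h).FF n)]
    (h0 : ∀ n, chi (GCx.Pair.rF (S.Q_rstable k p hp h) n) = 0) (n : ℕ) :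
    chi ((R.pstQ k p hp h2 h).rk (S.Q_rstable k p hp h) (R.rcomp k p hp h2) n) = 0 := by
  have h3 : (2 : k) ≠ 0 := by
    intro h4
    have h5 : ((2 : ℕ) : k) = 0 := by exact_mod_cast h4
    have h6 := Nat.le_of_dvd two_pos ((CharP.cast_eq_zero_iff k p 2).1 h5)
    omega
  exact (R.pstQ k p hp h2 h).chi_rk _ _ h3 h0 n

end

end RotS

open H288 H494 L250 in
/-- The real rotations of the loops. -/
noncomputable def rotSMk {M : Type} [MetricSpace M] [CompactSpace M] (H : Hol M) (G : GeoList M)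
    (hD : DescentStmt H G) : RotS (mkGSys H G hD) where
  R := rotC
  zero := rotC_zero
  add := rotC_rotC
  rot _ _ _ := rfl
  tau _ _ := rfl
  theta := revC_rotC
  mem a _ _ h := rotC_mem h a
  uc s ε hε := by
    set t := max s 0 with ht
    have ht0 : 0 ≤ t := le_max_right _ _
    have hcont : Filter.Tendsto (fun r : ℝ => t * Real.sqrt r) (nhds 0) (nhds 0) := by
      have : Continuous fun r : ℝ => t * Real.sqrt r := by fun_prop
      simpa using this.tendsto 0
    have hev := hcont.eventually (gt_mem_nhds (half_pos hε))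
    rw [Metric.eventually_nhds_iff] at hev
    obtain ⟨δ, hδ, h⟩ := hev
    refine ⟨min δ (ε / 2), lt_min hδ (half_pos hε), fun a b x hx y _ hab hxy => ?_⟩
    have h1 : dist (rotC a x) (rotC b x) ≤ t * Real.sqrt |a - b| :=
      dist_rotC_rotC_le ht0 hx a b
    have h2 : t * Real.sqrt |a - b| < ε / 2 := by
      apply h
      rw [Real.dist_eq, sub_zero, abs_abs]
      exact hab.trans_le (min_le_left _ _)
    have h3 : dist (rotC b x) (rotC b y) < ε / 2 := by
      rw [(isometry_rotC b).dist_eq]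
      exact hxy.trans_le (min_le_right _ _)
    calc dist (rotC a x) (rotC b y) ≤ dist (rotC a x) (rotC b x) + dist (rotC b x) (rotC b y) :=
          dist_triangle _ _ _
      _ < ε := by linarith

open H288 H494 L250 in
/-- The real rotations for the `GSys` of a closed manifold. -/
noncomputable def rotSOf {M : Type} [MetricSpace M] [CompactSpace M] (H : Hol M) (G : GeoList M)
    {ρ : ℝ} (hρ : 0 < ρ) (h : LS.UniqSeg M ρ) : RotS (gsysOf H G hρ h) :=
  rotSMk H G (descentStmt H G hρ h)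

end Vale.Agent.P216
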