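import Vale.Agent.P216.H670.Rel2a
import Vale.Agent.P216.H651.RelH
import Vale.Agent.P216.S4.Lev4
import Vale.Agent.P216.H994.T2Iface

/-!
# The `F` part of `Rel2` and the instance of `Rel2` (P216, Theorem C, block REL2)

`S : GSys Λ` with real rotations `R`, the group `Z/m` with `hm : Ord k m`.
`R n = F n` of the pair `S.Q k m _ h` (= `(X t, X s)`).
-/

open Set

namespace Vale.Agent.P216.RotS

open AS AS.GCx.Pair DV Circ.PSt S4

variable {Λ : Type} [PseudoMetricSpace Λ] {S : GSys Λ} (R : RotS S)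
  (k : Type) [Field k] {m : ℕ} (hm : Ord k m) {s t : ℝ} (h : s ≤ t)

/-- `F (X t, X s) → F (X t)` -/
noncomputable def jFM (n : ℕ) : (R.pstQM k hm h).F n →ₗ[k] (R.pstM k hm t).F n :=
  resF (R.pstQM k hm h) (R.pstM k hm t) (leQS k m hm.pos h) (leQT k m hm.pos h) n

/-- `F (X t) → F (X s)` -/
noncomputable def resFM (n : ℕ) : (R.pstM k hm t).F n →ₗ[k] (R.pstM k hm s).F n :=
  resF (R.pstM k hm t) (R.pstM k hm s) (leS k m hm.pos h) (leT k m hm.pos h) n

theorem TFM_ρ (n : ℕ) : (R.TFM k hm n).ρ s t h = R.resFM k hm h n := rfl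

/-- `F (X t) → F (X s)`, the target in the world `X t` -/
noncomputable def resWFM (n : ℕ) : (R.pstM k hm t).F n →ₗ[k] (R.pstWM k hm h).F n :=
  resF (R.pstM k hm t) (R.pstWM k hm h) (leWS k m hm.pos h) (leWT k m hm.pos h) n

/-- change of world -/
noncomputable def resWFM' (n : ℕ) : (R.pstWM k hm h).F n →ₗ[k] (R.pstM k hm s).F n :=
  resF (R.pstWM k hm h) (R.pstM k hm s) (leWS' k m hm.pos h) (leWT' k m hm.pos h) n

theorem resWFM'_resWFM (n : ℕ) (x : (R.pstM k hm t).F n) :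
    R.resWFM' k hm h n (R.resWFM k hm h n x) = R.resFM k hm h n x := by
  refine Subtype.ext ?_
  refine (resF_coe _ _ _ _ n _).trans ?_
  refine Eq.trans ?_ (resF_coe _ _ _ _ n _).symm
  have h1 := resF_coe (R.pstM k hm t) (R.pstWM k hm h) (leWS k m hm.pos h)
    (leWT k m hm.pos h) n x
  refine (congrArg (GCx.Pair.resF (leWS' k m hm.pos h) (leWT' k m hm.pos h) (n + 1)) h1).trans ?_
  obtain ⟨c, hc, e⟩ := H.exists_mk x.1
  rw [← e]
  rfl

theorem resWFM'_bij (n : ℕ) : Function.Bijective (R.resWFM' k hm h n) :=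
  resF_bij _ _ _ _ (fun n => GCx.Pair.resF_bijective (P := S.W k m hm.pos h)
    (P' := S.P k m hm.pos s)
    (leWS' k m hm.pos h) (leWT' k m hm.pos h) (S.W_bijective h) n) n

/-- change of world -/
noncomputable def eqWF (n : ℕ) : (R.pstWM k hm h).F n ≃ₗ[k] (R.pstM k hm s).F n :=
  LinearEquiv.ofBijective _ (R.resWFM'_bij k hm h n)

theorem eqWF_resWFM (n : ℕ) (x : (R.pstM k hm t).F n) :
    R.eqWF k hm h n (R.resWFM k hm h n x) = R.resFM k hm h n x := R.resWFM'_resWFM k hm h n x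

/-- connecting map in the world `X t` -/
noncomputable def delWF (n : ℕ) : (R.pstWM k hm h).F n →ₗ[k] (R.pstQM k hm h).F (n + 1) :=
  Circ.delP (R.pstWM k hm h) (R.pstQM k hm h) n

/-- connecting map `F (X s) → F (X t, X s)` -/
noncomputable def delFM (n : ℕ) : (R.pstM k hm s).F n →ₗ[k] (R.pstQM k hm h).F (n + 1) :=
  R.delWF k hm h n ∘ₗ (R.eqWF k hm h n).symm.toLinearMap

theorem delFM_eqWF (n : ℕ) (x : (R.pstWM k hm h).F n) :
    R.delFM k hm h n (R.eqWF k hm h n x) = R.delWF k hm h n x :=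
  congrArg (R.delWF k hm h n) ((R.eqWF k hm h n).symm_apply_apply x)

theorem resWFM_eq_zero (n : ℕ) (x : (R.pstM k hm t).F n) :
    R.resWFM k hm h n x = 0 ↔
      Hinc (le_refl (_ : AS.Sub (S.sym k m hm.pos).gcx.Tot))
        (TotS_mono (S.P k m hm.pos t).hT (S.W k m hm.pos h).hT (leWT k m hm.pos h))
        (n + 1) x.1 = 0 := by
  rw [Subtype.ext_iff]
  refine Iff.trans (Iff.of_eq (congrArg (· = _) (resF_coe _ _ _ _ n x))) ?_
  obtain ⟨c, hc, e⟩ := H.exists_mk x.1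
  rw [← e]
  exact (H.mk_eq_zero (C := (S.sym k m hm.pos).gcx.Tot)).trans
    (H.mk_eq_zero (C := (S.sym k m hm.pos).gcx.Tot)).symm

theorem exWF1 (n : ℕ) : Function.Exact (R.jFM k hm h n) (R.resWFM k hm h n) := by
  have h1 := (R.circM k hm).exact_midK (R.pstM k hm t).tS (R.pstWM k hm h).tT
    (R.pstM k hm t).tT
    (TotS_mono (S.P k m hm.pos t).hT (S.W k m hm.pos h).hT (leWT k m hm.pos h))
    (TotS_mono (S.W k m hm.pos h).hT (S.P k m hm.pos t).hS (leQS k m hm.pos h)) n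
  intro x
  have e : ∀ y, R.jFM k hm h n y = (R.circM k hm).incK (R.pstWM k hm h).tT
      (R.pstM k hm t).tT (R.pstM k hm t).tS (R.pstM k hm t).tT
      (TotS_mono (S.W k m hm.pos h).hT (S.P k m hm.pos t).hS (leQS k m hm.pos h)) le_rfl n y :=
    fun y => Subtype.ext (resF_coe _ _ _ _ n y)
  refine (R.resWFM_eq_zero k hm h n x).trans (Iff.trans ?_ ((h1 x).trans ?_))
  · exact ⟨fun hx => Subtype.ext hx, fun hx => congrArg Subtype.val hx⟩
  · exact ⟨fun ⟨y, hy⟩ => ⟨y, (e y).trans hy⟩, fun ⟨y, hy⟩ => ⟨y, (e y).symm.trans hy⟩⟩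

theorem exWF2 (n : ℕ) : Function.Exact (R.resWFM k hm h n) (R.delWF k hm h n) := by
  have h1 := (R.circM k hm).exact_delK (R.pstM k hm t).tS (R.pstWM k hm h).tT
    (R.pstM k hm t).tT
    (TotS_mono (S.P k m hm.pos t).hT (S.W k m hm.pos h).hT (leWT k m hm.pos h))
    (TotS_mono (S.W k m hm.pos h).hT (S.P k m hm.pos t).hS (leQS k m hm.pos h)) n
  intro x
  refine (h1 x).trans ?_
  constructor
  · rintro ⟨y, hy⟩
    exact ⟨y, (Subtype.ext (resF_coe _ _ _ _ n y)).trans hy⟩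
  · rintro ⟨y, hy⟩
    exact ⟨y, (Subtype.ext (resF_coe _ _ _ _ n y)).symm.trans hy⟩

theorem exWF3 (n : ℕ) : Function.Exact (R.delWF k hm h n) (R.jFM k hm h (n + 1)) := by
  have h1 := (R.circM k hm).exact_incK (R.pstM k hm t).tS (R.pstWM k hm h).tT
    (R.pstM k hm t).tT
    (TotS_mono (S.P k m hm.pos t).hT (S.W k m hm.pos h).hT (leWT k m hm.pos h))
    (TotS_mono (S.W k m hm.pos h).hT (S.P k m hm.pos t).hS (leQS k m hm.pos h)) n
  intro x
  have e : R.jFM k hm h (n + 1) x = (R.circM k hm).incK (R.pstWM k hm h).tT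
      (R.pstM k hm t).tT (R.pstM k hm t).tS (R.pstM k hm t).tT
      (TotS_mono (S.W k m hm.pos h).hT (S.P k m hm.pos t).hS (leQS k m hm.pos h)) le_rfl
      (n + 1) x := Subtype.ext (resF_coe _ _ _ _ (n + 1) x)
  exact Iff.trans ⟨fun hx => e.symm.trans hx, fun hx => e.trans hx⟩ (h1 x)

theorem exFM1 (n : ℕ) : Function.Exact (R.jFM k hm h n) (R.resFM k hm h n) := by
  intro x
  rw [← eqWF_resWFM, LinearEquiv.map_eq_zero_iff]
  exact R.exWF1 k hm h n x

theorem exFM2 (n : ℕ) : Function.Exact (R.resFM k hm h n) (R.delFM k hm h n) := by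
  intro y
  obtain ⟨z, rfl⟩ := (R.eqWF k hm h n).surjective y
  rw [delFM_eqWF]
  refine (R.exWF2 k hm h n z).trans ?_
  constructor
  · rintro ⟨x, rfl⟩
    exact ⟨x, (R.eqWF_resWFM k hm h n x).symm⟩
  · rintro ⟨x, hx⟩
    refine ⟨x, (R.eqWF k hm h n).injective ?_⟩
    rw [← hx]
    exact R.eqWF_resWFM k hm h n x

theorem exFM3 (n : ℕ) : Function.Exact (R.delFM k hm h n) (R.jFM k hm h (n + 1)) := by
  intro x
  refine (R.exWF3 k hm h n x).trans ?_
  constructor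
  · rintro ⟨y, rfl⟩
    exact ⟨R.eqWF k hm h n y, R.delFM_eqWF k hm h n y⟩
  · rintro ⟨y, rfl⟩
    exact ⟨(R.eqWF k hm h n).symm y, rfl⟩

/-! ### Gysin maps -/

theorem jFM_u (n : ℕ) (x : (R.pstQM k hm h).F n) :
    R.jFM k hm h (n + 2) ((R.pstQM k hm h).uF n x) =
      (R.pstM k hm t).uF n (R.jFM k hm h n x) :=
  (uF_resF (R.pstQM k hm h) (R.pstM k hm t) (leQS k m hm.pos h) (leQT k m hm.pos h) n x).symm

theorem jFM_π (n : ℕ) (x : (R.pstQM k hm h).F n) :
    S.relJ k m hm.pos h n ((R.pstQM k hm h).πF n x) =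
      (R.pstM k hm t).πF n (R.jFM k hm h n x) :=
  (πF_resF (R.pstQM k hm h) (R.pstM k hm t) (leQS k m hm.pos h) (leQT k m hm.pos h) n x).symm

theorem eqW_πF (n : ℕ) (x : (R.pstWM k hm h).F n) :
    S.eqW k m hm.pos h n ((R.pstWM k hm h).πF n x) =
      (R.pstM k hm s).πF n (R.eqWF k hm h n x) :=
  (πF_resF (R.pstWM k hm h) (R.pstM k hm s) (leWS' k m hm.pos h) (leWT' k m hm.pos h) n x).symm

theorem eqWF_dF (n : ℕ) (x : (S.W k m hm.pos h).HH (n + 1)) :
    R.eqWF k hm h n ((R.pstWM k hm h).dF n x) =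
      (R.pstM k hm s).dF n (S.eqW k m hm.pos h (n + 1) x) :=
  (dF_resH (R.pstWM k hm h) (R.pstM k hm s) (leWS' k m hm.pos h) (leWT' k m hm.pos h) n x).symm

theorem delWF_π (n : ℕ) (x : (R.pstWM k hm h).F n) :
    (R.pstQM k hm h).πF (n + 1) (R.delWF k hm h n x) =
      S.delW k m hm.pos h n ((R.pstWM k hm h).πF n x) :=
  Circ.πF_delP (R.pstWM k hm h) (R.pstQM k hm h) n x

theorem delWF_d (n : ℕ) (x : (S.W k m hm.pos h).HH (n + 1)) :
    (R.pstQM k hm h).dF (n + 1) (S.delW k m hm.pos h (n + 1) x) =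
      - R.delWF k hm h n ((R.pstWM k hm h).dF n x) :=
  Circ.dF_Hdel (R.pstWM k hm h) (R.pstQM k hm h) n x

/-- `δ π = π δ` -/
theorem delFM_π (n : ℕ) (x : (R.pstM k hm s).F n) :
    S.relDel k m hm.pos h n ((R.pstM k hm s).πF n x) =
      (R.pstQM k hm h).πF (n + 1) (R.delFM k hm h n x) := by
  obtain ⟨z, rfl⟩ := (R.eqWF k hm h n).surjective x
  rw [delFM_eqWF, delWF_π, ← eqW_πF, GSys.relDel_eqW]

/-- `δ d = - d δ` -/
theorem delFM_d (n : ℕ) (x : (S.P k m hm.pos s).HH (n + 1)) :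
    (R.pstQM k hm h).dF (n + 1) (S.relDel k m hm.pos h (n + 1) x) =
      - R.delFM k hm h n ((R.pstM k hm s).dF n x) := by
  obtain ⟨z, rfl⟩ := (S.eqW k m hm.pos h (n + 1)).surjective x
  rw [GSys.relDel_eqW, delWF_d, ← eqWF_dF, delFM_eqWF]

/-- **The instance of `Rel2`**, the projections `eN`, `eR` being arguments. -/
noncomputable def rel2 (two : (2 : k) = 0)
    (eN : ∀ n, (S.Q k m hm.pos h).HH n →ₗ[k] (S.Q k m hm.pos h).HH n)
    (eR : ∀ n, (R.pstQM k hm h).F n →ₗ[k] (R.pstQM k hm h).F n)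
    (e_π : ∀ n x, eN n ((R.pstQM k hm h).πF n x) = (R.pstQM k hm h).πF n (eR n x))
    (θ_e : ∀ n x, S.relTh k m hm.pos h n (eN n x) =
      S.relTh k m hm.pos h n x - eN n (S.relTh k m hm.pos h n x)) :
    H994.Rel2 k (R.gysM k hm t) (R.gysM k hm s) (fun n => S.relRes k m hm.pos h n)
      (fun n => R.resFM k hm h n) (fun n => S.absTh k m hm.pos t n)
      (fun n => S.absTh k m hm.pos s n) where
  N n := (S.Q k m hm.pos h).HH n
  R n := (R.pstQM k hm h).F n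
  jH n := S.relJ k m hm.pos h n
  δH n := S.relDel k m hm.pos h n
  jF n := R.jFM k hm h n
  δF n := R.delFM k hm h n
  injH := S.relJ_zero_injective k m hm.pos h
  exH1 n := S.relExact1 k m hm.pos h n
  exH2 n := S.relExact2 k m hm.pos h n
  exH3 n := S.relExact3 k m hm.pos h n
  exF1 n := R.exFM1 k hm h n
  exF2 n := R.exFM2 k hm h n
  exF3 n := R.exFM3 k hm h n
  uR n := (R.pstQM k hm h).uF n
  πR n := (R.pstQM k hm h).πF n
  dR n := (R.pstQM k hm h).dF n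
  j_u n x := R.jFM_u k hm h n x
  j_π n x := R.jFM_π k hm h n x
  δ_π n x := R.delFM_π k hm h n x
  δ_d n x := by
    have h1 : ∀ y : (R.pstQM k hm h).F (n + 1), -y = y := fun y => by
      have h2 : (2 : k) • y = 0 := by rw [two, zero_smul]
      rw [two_smul] at h2
      exact (eq_neg_of_add_eq_zero_left h2).symm
    exact (R.delFM_d k hm h n x).trans (h1 _)
  πuR n x := ((R.pstQM k hm h).gys.ex3 n _).mpr ⟨x, rfl⟩
  exR n := (R.pstQM k hm h).gys.ex1 n
  θN n := S.relTh k m hm.pos h n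
  θθN n x := S.relTh_relTh k m hm.pos h n x
  θ_j n x := S.absTh_relJ k m hm.pos h n x
  θ_δ n x := S.relTh_relDel k m hm.pos h n x
  eN := eN
  eR := eR
  e_π := e_π
  θ_e := θ_e

end Vale.Agent.P216.RotS
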