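import Vale.Agent.P216.DV706.Inst
import Vale.Agent.P216.H670.Theta2

/-!
# The reversal anticommutes with the operator `A` of `circSym`
-/

open Set Finset

namespace Vale.Agent.P216.DV

open Vale.Agent.P216.AS Vale.Agent.P216.DV965

variable {E : Type} [PseudoMetricSpace E] {k : Type} [Field k] {I : Type} {p : ℕ}

/-- The reversal anticommutes with `A`. -/
theorem circSym_rcomp (Y : Sym E k I p) [CharP k p] (h2 : 2 < p) {H : ℝ → E → E}
    (hH : Arc Y.g H) : (circSym Y h2 hH).RComp Y.rev := by
  intro n x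
  have h1 := Circ.r_sum_g (Y.gK n) (Y.rK n) p (CharP.cast_eq_zero k p)
    (fun x => LinearMap.congr_fun (Y.gK_pow n) x)
    (fun x => LinearMap.congr_fun (Y.gK_rK_gK n) x) x
  rw [circSym_A, circSym_A]
  exact h1

end Vale.Agent.P216.DV
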