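import Mathlib

/-!
# Second differences of a `C^2` function (for the convexity of small geodesic balls)
-/

open Set Filter Topology
open scoped ContDiff

namespace Vale.Agent.P216.H670.Conv

/-- Second difference in one variable. -/
theorem second_diff {g : ℝ → ℝ} (hg : ContDiffAt ℝ 2 g 0) (h : 0 < deriv (deriv g) 0) :
    ∀ᶠ s in 𝓝 (0 : ℝ), 2 * g 0 ≤ g s + g (-s) := by
  have h1 : ∀ᶠ s in 𝓝 (0 : ℝ), DifferentiableAt ℝ g s := by
    have := hg.eventually (by simp)
    filter_upwards [this] with s hs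
    exact hs.differentiableAt (by norm_num)
  have hneg : Tendsto (fun s : ℝ => -s) (𝓝 0) (𝓝 0) := by
    have := (continuous_neg (G := ℝ)).tendsto 0
    simpa using this
  have h2 : ∀ᶠ s in 𝓝 (0 : ℝ), DifferentiableAt ℝ g (-s) := hneg.eventually h1
  have hd : DifferentiableAt ℝ (deriv g) 0 := by
    have h3 : ContDiffAt ℝ 1 (deriv g) 0 := by
      have h4 : ContDiffAt ℝ 1 (fderiv ℝ g) 0 := hg.fderiv_right (by norm_num)
      have h5 : deriv g = fun s => fderiv ℝ g s 1 := by
        funext s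
        exact (fderiv_apply_one_eq_deriv (f := g) (x := s)).symm
      rw [h5]
      exact h4.clm_apply contDiffAt_const
    exact h3.differentiableAt (by norm_num)
  set k : ℝ → ℝ := fun s => g s + g (-s) with hk
  have hk1 : deriv k =ᶠ[𝓝 0] fun s => deriv g s - deriv g (-s) := by
    filter_upwards [h1, h2] with s hs hs'
    have e1 : HasDerivAt (fun s => g (-s)) (-deriv g (-s)) s := by
      have := hs'.hasDerivAt.comp s (hasDerivAt_neg s)
      simpa [Function.comp_def] using this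
    have := (hs.hasDerivAt.add e1).deriv
    rw [hk]
    rw [show (fun s => g s + g (-s)) = (g + fun s => g (-s)) from rfl, this]
    ring
  have hk0 : deriv k 0 = 0 := by
    rw [hk1.eq_of_nhds]
    simp
  have hk2 : deriv (deriv k) 0 = 2 * deriv (deriv g) 0 := by
    rw [hk1.deriv_eq]
    have hd' : DifferentiableAt ℝ (deriv g) (-(0 : ℝ)) := by simpa using hd
    have e1 : HasDerivAt (fun s => deriv g (-s)) (-deriv (deriv g) (-0)) 0 := by
      have := hd'.hasDerivAt.comp (0 : ℝ) (hasDerivAt_neg (0 : ℝ))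
      simpa [Function.comp_def] using this
    have := (hd.hasDerivAt.sub e1).deriv
    rw [show (fun s => deriv g s - deriv g (-s)) = (deriv g - fun s => deriv g (-s)) from rfl,
      this]
    simp
    ring
  have hc : ContinuousAt k 0 := by
    have e1 : ContinuousAt g 0 := hg.continuousAt
    have e2 : ContinuousAt (fun s => g (-s)) 0 := by
      have : ContinuousAt g (-(0 : ℝ)) := by simpa using e1
      exact ContinuousAt.comp (f := fun s : ℝ => -s) this continuous_neg.continuousAt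
    exact e1.add e2
  have hmin : IsLocalMin k 0 :=
    isLocalMin_of_deriv_deriv_pos (by rw [hk2]; linarith) hk0 hc
  have := hmin
  filter_upwards [this] with s hs
  have e : k 0 = 2 * g 0 := by simp [hk]; ring
  rw [e] at hs
  exact hs

variable {V W : Type*} [NormedAddCommGroup V] [NormedSpace ℝ V] [NormedAddCommGroup W]
  [NormedSpace ℝ W] [FiniteDimensional ℝ W]

/-- the second derivative of `s ↦ Φ (a, s u)` at `0` -/
noncomputable def Q (Φ : V × W → ℝ) (a : V) (u : W) : ℝ :=
  (fderiv ℝ (fderiv ℝ Φ) (a, 0) (0, u)) (0, u)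

omit [FiniteDimensional ℝ W] in
theorem deriv2 {Φ : V × W → ℝ} {a : V} (h : ContDiffAt ℝ 2 Φ (a, 0)) (u : W) :
    deriv (deriv fun s : ℝ => Φ (a, s • u)) 0 = Q Φ a u := by
  have hline : ∀ s : ℝ, HasDerivAt (fun s : ℝ => ((a, s • u) : V × W)) (0, u) s := by
    intro s
    have h1 : HasDerivAt (fun _ : ℝ => a) 0 s := hasDerivAt_const s a
    have h2 : HasDerivAt (fun s : ℝ => s • u) u s := by
      simpa using (hasDerivAt_id s).smul_const u
    exact h1.prodMk h2
  have h0 : ((a, (0 : ℝ) • u) : V × W) = (a, 0) := by simp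
  have hcont : Tendsto (fun s : ℝ => ((a, s • u) : V × W)) (𝓝 0) (𝓝 (a, 0)) := by
    have := (hline 0).continuousAt
    rw [ContinuousAt, h0] at this
    exact this
  have h1 : (deriv fun s : ℝ => Φ (a, s • u)) =ᶠ[𝓝 0]
      fun s => fderiv ℝ Φ (a, s • u) (0, u) := by
    have h2 : ∀ᶠ q in 𝓝 ((a, 0) : V × W), DifferentiableAt ℝ Φ q := by
      filter_upwards [h.eventually (by simp)] with q hq
      exact hq.differentiableAt (by norm_num)
    filter_upwards [hcont.eventually h2] with s hs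
    exact (hs.hasFDerivAt.comp_hasDerivAt s (hline s)).deriv
  rw [h1.deriv_eq]
  have h3 : DifferentiableAt ℝ (fderiv ℝ Φ) (a, 0) :=
    (h.fderiv_right (m := 1) (by norm_num)).differentiableAt (by norm_num)
  have h4 : HasDerivAt (fun s : ℝ => fderiv ℝ Φ (a, s • u))
      (fderiv ℝ (fderiv ℝ Φ) (a, 0) (0, u)) 0 := by
    have h5 : HasFDerivAt (fderiv ℝ Φ) (fderiv ℝ (fderiv ℝ Φ) (a, 0)) (a, (0 : ℝ) • u) := by
      rw [h0]
      exact h3.hasFDerivAt
    exact h5.comp_hasDerivAt (0 : ℝ) (hline 0)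
  have h6 : HasDerivAt (fun s : ℝ => fderiv ℝ Φ (a, s • u) (0, u))
      ((fderiv ℝ (fderiv ℝ Φ) (a, 0) (0, u)) (0, u)) 0 := by
    have := h4.clm_apply (hasDerivAt_const (0 : ℝ) ((0, u) : V × W))
    simpa using this
  exact h6.deriv

/-- **Local positivity of the second differences.** -/
theorem local_pos {Φ : V × W → ℝ} {c : V} (h : ContDiffAt ℝ 2 Φ (c, 0))
    (hpos : ∀ u : W, u ≠ 0 → ∃ κ : ℝ, 0 < κ ∧ ∀ᶠ s in 𝓝 (0 : ℝ), Φ (c, s • u) = κ * s ^ 2) :
    ∀ᶠ a in 𝓝 c, ∀ u : W, ∀ᶠ s in 𝓝 (0 : ℝ), 2 * Φ (a, 0) ≤ Φ (a, s • u) + Φ (a, -(s • u)) := by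
  have hQc : ∀ u : W, u ≠ 0 → 0 < Q Φ c u := by
    intro u hu
    obtain ⟨κ, hκ, hs⟩ := hpos u hu
    rw [← deriv2 h u]
    have h1 : (fun s : ℝ => Φ (c, s • u)) =ᶠ[𝓝 0] fun s => κ * s ^ 2 := hs
    have h2 : (deriv fun s : ℝ => Φ (c, s • u)) =ᶠ[𝓝 0] fun s => κ * (2 * s) := by
      have h3 := h1.deriv
      refine h3.trans (Filter.Eventually.of_forall fun s => ?_)
      have := ((hasDerivAt_pow 2 s).const_mul κ).deriv
      simpa using this
    rw [h2.deriv_eq]
    have : deriv (fun s : ℝ => κ * (2 * s)) 0 = κ * 2 := by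
      have := (((hasDerivAt_id (0 : ℝ)).const_mul 2).const_mul κ).deriv
      simpa using this
    rw [this]
    linarith
  -- continuity of `Q`
  have hcont : ∀ u₀ : W, ContinuousAt (fun q : V × W => Q Φ q.1 q.2) (c, u₀) := by
    intro u₀
    have h1 : ContDiffAt ℝ 1 (fderiv ℝ Φ) (c, 0) := h.fderiv_right (by norm_num)
    have h2 : ContinuousAt (fderiv ℝ (fderiv ℝ Φ)) (c, 0) :=
      (h1.fderiv_right (m := 0) (by norm_num)).continuousAt
    have h3 : ContinuousAt (fun q : V × W => ((q.1, 0) : V × W)) (c, u₀) := by fun_prop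
    have h4 : ContinuousAt (fun q : V × W => fderiv ℝ (fderiv ℝ Φ) (q.1, 0)) (c, u₀) :=
      ContinuousAt.comp (f := fun q : V × W => ((q.1, 0) : V × W)) h2 h3
    have h5 : ContinuousAt (fun q : V × W => ((0, q.2) : V × W)) (c, u₀) := by fun_prop
    have h6 := h4.clm_apply h5
    exact h6.clm_apply h5
  have hcomp : IsCompact (Metric.sphere (0 : W) 1) := isCompact_sphere _ _
  have h1 : ∀ᶠ a in 𝓝 c, ∀ u ∈ Metric.sphere (0 : W) 1, 0 < Q Φ a u := by
    refine hcomp.eventually_forall_of_forall_eventually fun u hu => ?_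
    have hu0 : u ≠ 0 := by
      rintro rfl
      simp at hu
    have := (hcont u).eventually (lt_mem_nhds (hQc u hu0))
    exact this
  have h2 : ∀ᶠ a in 𝓝 c, ContDiffAt ℝ 2 Φ (a, 0) := by
    have h3 : Tendsto (fun a : V => ((a, 0) : V × W)) (𝓝 c) (𝓝 (c, 0)) :=
      (by fun_prop : Continuous fun a : V => ((a, 0) : V × W)).tendsto c
    exact h3.eventually (h.eventually (by simp))
  filter_upwards [h1, h2] with a ha ha2 u
  rcases eq_or_ne u 0 with rfl | hu
  · refine Filter.Eventually.of_forall fun s => ?_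
    simp only [smul_zero, neg_zero]
    linarith
  · -- scale to the unit sphere
    have hn : 0 < ‖u‖ := norm_pos_iff.2 hu
    have hQ : 0 < Q Φ a u := by
      have h3 := ha (‖u‖⁻¹ • u) (by simp [norm_smul, hn.ne'])
      have h4 : Q Φ a u = ‖u‖ ^ 2 * Q Φ a (‖u‖⁻¹ • u) := by
        unfold Q
        have e : ((0, ‖u‖⁻¹ • u) : V × W) = ‖u‖⁻¹ • ((0, u) : V × W) := by simp
        rw [e, map_smul, map_smul]
        simp only [ContinuousLinearMap.coe_smul', Pi.smul_apply, smul_eq_mul]
        field_simp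
      rw [h4]
      positivity
    rw [← deriv2 ha2 u] at hQ
    have hg : ContDiffAt ℝ 2 (fun s : ℝ => Φ (a, s • u)) 0 := by
      have h5 : ContDiffAt ℝ 2 (fun s : ℝ => ((a, s • u) : V × W)) 0 := by fun_prop
      have h6 : ContDiffAt ℝ 2 Φ ((fun s : ℝ => ((a, s • u) : V × W)) 0) := by
        simpa using ha2
      exact h6.comp (0 : ℝ) h5
    have h7 := second_diff hg hQ
    filter_upwards [h7] with s hs
    simp only [zero_smul, neg_smul] at hs
    exact hs

end Vale.Agent.P216.H670.Conv
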