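import Vale.Agent.P216.Smooth.Geo
import Vale.Agent.P216.LS.Seg
import Vale.Agent.P216.H609.Glue
import Vale.Agent.P216.H670.ConvA

/-!
# P216-D, block [CONV] : small balls of a compact Riemannian manifold are geodesically convex
-/

set_option maxSynthPendingDepth 3
set_option linter.unusedSectionVars false

open Bundle Manifold Set Filter
open scoped ContDiff Manifold Topology
open Vale.Agent.P234

namespace Vale.Agent.P216.H670

/-- Balls of radius `< r0` are convex for the short segments. -/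
def ConvR (M : Type*) [MetricSpace M] (r0 : ℝ) : Prop :=
  ∀ p x y : M, ∀ r, r < r0 → dist p x ≤ r → dist p y ≤ r → ∀ t ∈ Icc (0 : ℝ) 1,
    dist p (LS.seg x y t) ≤ r

namespace Conv

noncomputable section

open Vale.Agent.P216.Geo

variable {E : Type*} [NormedAddCommGroup E] [NormedSpace ℝ E] [FiniteDimensional ℝ E]
  {M : Type*} [MetricSpace M] [ChartedSpace E M]
  [RiemannianBundle (fun x : M => TangentSpace 𝓘(ℝ, E) x)]
  [IsManifold 𝓘(ℝ, E) ∞ M]
  [IsContMDiffRiemannianBundle 𝓘(ℝ, E) ∞ E (fun x : M => TangentSpace 𝓘(ℝ, E) x)]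
  {ε : ℝ} {e₀ : ∀ x : M, TangentSpace 𝓘(ℝ, E) x → M} {L : ∀ x : M, M → TangentSpace 𝓘(ℝ, E) x}

/-- the vector field with constant components in the trivialisation at `x₀` -/
def vec (x₀ : M) (q : M × E) : TangentBundle 𝓘(ℝ, E) M :=
  (trivializationAt E (TangentSpace 𝓘(ℝ, E) : M → Type _) x₀).toOpenPartialHomeomorph.symm q

theorem vec_eq {x₀ z : M} (hz : z ∈ (trivializationAt E (TangentSpace 𝓘(ℝ, E) : M → Type _) x₀).baseSet)
    (u : E) : vec x₀ (z, u) =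
      ⟨z, (trivializationAt E (TangentSpace 𝓘(ℝ, E) : M → Type _) x₀).symmL ℝ z u⟩ := by
  rw [vec, Trivialization.symmL_apply]
  exact ((trivializationAt E (TangentSpace 𝓘(ℝ, E) : M → Type _) x₀).mk_symm hz u).symm
  exact hz

theorem smooth_vec (x₀ : M) (u : E) :
    ContMDiffAt (𝓘(ℝ, E).prod 𝓘(ℝ, E)) 𝓘(ℝ, E).tangent ∞ (vec x₀ : M × E → _) (x₀, u) := by
  have h1 := (trivializationAt E (TangentSpace 𝓘(ℝ, E) : M → Type _) x₀).contMDiffOn_symm
    (IB := 𝓘(ℝ, E)) (n := ∞)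
  have h2 : (x₀, u) ∈ (trivializationAt E (TangentSpace 𝓘(ℝ, E) : M → Type _) x₀).target := by
    rw [Trivialization.mem_target]
    exact FiberBundle.mem_baseSet_trivializationAt' x₀
  have h3 : (trivializationAt E (TangentSpace 𝓘(ℝ, E) : M → Type _) x₀).target ∈ 𝓝 ((x₀, u) : M × E) :=
    (trivializationAt E (TangentSpace 𝓘(ℝ, E) : M → Type _) x₀).open_target.mem_nhds h2
  exact (h1 _ h2).contMDiffAt h3

/-- the cost in the trivialisation -/
def Psi (e₀ : ∀ x : M, TangentSpace 𝓘(ℝ, E) x → M) (x₀ : M) (q : (M × M) × E) : ℝ :=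
  cost q.1.1 (e₀ (vec x₀ (q.1.2, q.2)).proj (vec x₀ (q.1.2, q.2)).snd)

theorem smooth_Psi (h : NearExp ε e₀ L) (x₀ : M) :
    ContMDiffAt ((𝓘(ℝ, E).prod 𝓘(ℝ, E)).prod 𝓘(ℝ, E)) 𝓘(ℝ, ℝ) ∞
      (Psi e₀ x₀ : (M × M) × E → ℝ) ((x₀, x₀), 0) := by
  have hz : x₀ ∈ (trivializationAt E (TangentSpace 𝓘(ℝ, E) : M → Type _) x₀).baseSet :=
    FiberBundle.mem_baseSet_trivializationAt' x₀
  have hv : vec x₀ (x₀, (0 : E)) = ⟨x₀, 0⟩ := by rw [vec_eq hz, map_zero]
  have h1 : ContMDiffAt ((𝓘(ℝ, E).prod 𝓘(ℝ, E)).prod 𝓘(ℝ, E)) (𝓘(ℝ, E).prod 𝓘(ℝ, E)) ∞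
      (fun q : (M × M) × E => ((q.1.2, q.2) : M × E)) ((x₀, x₀), 0) :=
    (contMDiffAt_snd.comp _ contMDiffAt_fst).prodMk contMDiffAt_snd
  have h2 : ContMDiffAt ((𝓘(ℝ, E).prod 𝓘(ℝ, E)).prod 𝓘(ℝ, E)) 𝓘(ℝ, E).tangent ∞
      (fun q : (M × M) × E => vec x₀ (q.1.2, q.2)) ((x₀, x₀), 0) :=
    ContMDiffAt.comp (g := (vec x₀ : M × E → _)) ((x₀, x₀), (0 : E)) (smooth_vec x₀ 0) h1
  have h3 : ContMDiffAt ((𝓘(ℝ, E).prod 𝓘(ℝ, E)).prod 𝓘(ℝ, E)) 𝓘(ℝ, E) ∞
      (fun q : (M × M) × E => e₀ (vec x₀ (q.1.2, q.2)).proj (vec x₀ (q.1.2, q.2)).snd)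
      ((x₀, x₀), 0) := by
    refine ContMDiffAt.comp (g := fun p : TangentBundle 𝓘(ℝ, E) M => e₀ p.proj p.snd)
      ((x₀, x₀), (0 : E)) (h.smooth _ ?_) h2
    show ‖(vec x₀ (x₀, (0 : E))).snd‖ < ε
    rw [hv]
    show ‖(0 : TangentSpace 𝓘(ℝ, E) x₀)‖ < ε
    rw [norm_zero]
    exact h.pos
  have h4 : ContMDiffAt ((𝓘(ℝ, E).prod 𝓘(ℝ, E)).prod 𝓘(ℝ, E)) (𝓘(ℝ, E).prod 𝓘(ℝ, E)) ∞
      (fun q : (M × M) × E =>
        ((q.1.1, e₀ (vec x₀ (q.1.2, q.2)).proj (vec x₀ (q.1.2, q.2)).snd) : M × M))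
      ((x₀, x₀), 0) :=
    (contMDiffAt_fst.comp _ contMDiffAt_fst).prodMk h3
  refine ContMDiffAt.comp (g := fun q : M × M => cost q.1 q.2) ((x₀, x₀), (0 : E))
    (smooth_cost h ?_) h4
  show dist x₀ (e₀ (vec x₀ (x₀, (0 : E))).proj (vec x₀ (x₀, (0 : E))).snd) < ε
  rw [hv]
  show dist x₀ (e₀ x₀ 0) < ε
  rw [h.exp_zero, dist_self]
  exact h.pos

/-- **Second differences along geodesics are nonnegative near the diagonal.** -/
theorem local_geo (h : NearExp ε e₀ L) (x₀ : M) : ∀ᶠ q : M × M in 𝓝 (x₀, x₀),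
    ∀ w : TangentSpace 𝓘(ℝ, E) q.2, ∀ᶠ s in 𝓝 (0 : ℝ),
      2 * cost q.1 q.2 ≤ cost q.1 (e₀ q.2 (s • w)) + cost q.1 (e₀ q.2 (-(s • w))) := by
  have hx₀ : x₀ ∈ (trivializationAt E (TangentSpace 𝓘(ℝ, E) : M → Type _) x₀).baseSet :=
    FiberBundle.mem_baseSet_trivializationAt' x₀
  set φ := extChartAt 𝓘(ℝ, E) x₀ with hφ
  set Φ : (E × E) × E → ℝ := fun r => Psi e₀ x₀ ((φ.symm r.1.1, φ.symm r.1.2), r.2) with hΦ
  have hx : φ.symm (φ x₀) = x₀ := extChartAt_to_inv x₀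
  have hsymm : ContMDiffAt 𝓘(ℝ, E) 𝓘(ℝ, E) ∞ φ.symm (φ x₀) :=
    (contMDiffOn_extChartAt_symm x₀).contMDiffAt (extChartAt_target_mem_nhds x₀)
  have hΦs : ContDiffAt ℝ 2 Φ ((φ x₀, φ x₀), 0) := by
    have h1 : ContMDiffAt 𝓘(ℝ, (E × E) × E) ((𝓘(ℝ, E).prod 𝓘(ℝ, E)).prod 𝓘(ℝ, E)) ∞
        (fun r : (E × E) × E => (((φ.symm r.1.1, φ.symm r.1.2), r.2) : (M × M) × E))
        ((φ x₀, φ x₀), 0) := by
      have g1 : ContMDiffAt 𝓘(ℝ, (E × E) × E) 𝓘(ℝ, E) ∞ (fun r : (E × E) × E => r.1.1)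
          ((φ x₀, φ x₀), 0) :=
        (by fun_prop : ContDiff ℝ ∞ fun r : (E × E) × E => r.1.1).contMDiff.contMDiffAt
      have g2 : ContMDiffAt 𝓘(ℝ, (E × E) × E) 𝓘(ℝ, E) ∞ (fun r : (E × E) × E => r.1.2)
          ((φ x₀, φ x₀), 0) :=
        (by fun_prop : ContDiff ℝ ∞ fun r : (E × E) × E => r.1.2).contMDiff.contMDiffAt
      have g3 : ContMDiffAt 𝓘(ℝ, (E × E) × E) 𝓘(ℝ, E) ∞ (fun r : (E × E) × E => r.2)
          ((φ x₀, φ x₀), 0) :=
        (by fun_prop : ContDiff ℝ ∞ fun r : (E × E) × E => r.2).contMDiff.contMDiffAt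
      exact ((ContMDiffAt.comp (g := φ.symm) ((φ x₀, φ x₀), (0 : E)) hsymm g1).prodMk
        (ContMDiffAt.comp (g := φ.symm) ((φ x₀, φ x₀), (0 : E)) hsymm g2)).prodMk g3
    have h2 : ContMDiffAt 𝓘(ℝ, (E × E) × E) 𝓘(ℝ, ℝ) ∞ Φ ((φ x₀, φ x₀), 0) := by
      refine ContMDiffAt.comp (g := (Psi e₀ x₀ : (M × M) × E → ℝ)) ((φ x₀, φ x₀), (0 : E))
        ?_ h1
      show ContMDiffAt _ _ _ _ ((φ.symm (φ x₀), φ.symm (φ x₀)), (0 : E))
      rw [hx]
      exact smooth_Psi h x₀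
    exact (contMDiffAt_iff_contDiffAt.1 h2).of_le ENat.LEInfty.out
  have hpos : ∀ u : E, u ≠ 0 → ∃ κ : ℝ, 0 < κ ∧ ∀ᶠ s in 𝓝 (0 : ℝ),
      Φ ((φ x₀, φ x₀), s • u) = κ * s ^ 2 := by
    intro u hu
    set w : TangentSpace 𝓘(ℝ, E) x₀ :=
      (trivializationAt E (TangentSpace 𝓘(ℝ, E) : M → Type _) x₀).symmL ℝ x₀ u with hw
    have hw0 : w ≠ 0 := by
      intro h0
      apply hu
      have := (trivializationAt E (TangentSpace 𝓘(ℝ, E) : M → Type _)
        x₀).continuousLinearMapAt_symmL (R := ℝ) hx₀ u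
      rw [← this, ← hw, h0, map_zero]
    have hn : 0 < ‖w‖ := norm_pos_iff.2 hw0
    refine ⟨‖w‖ ^ 2 / 2, by positivity, ?_⟩
    have h1 : ∀ᶠ s in 𝓝 (0 : ℝ), |s| * ‖w‖ < ε := by
      have : Tendsto (fun s : ℝ => |s| * ‖w‖) (𝓝 0) (𝓝 (|0| * ‖w‖)) :=
        (by fun_prop : Continuous fun s : ℝ => |s| * ‖w‖).tendsto 0
      rw [abs_zero, zero_mul] at this
      exact this.eventually (gt_mem_nhds h.pos)
    filter_upwards [h1] with s hs
    show Psi e₀ x₀ ((φ.symm (φ x₀), φ.symm (φ x₀)), s • u) = _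
    rw [hx, Psi]
    show cost x₀ (e₀ (vec x₀ (x₀, s • u)).proj (vec x₀ (x₀, s • u)).snd) = _
    rw [vec_eq hx₀, map_smul]
    show cost x₀ (e₀ x₀ (s • w)) = _
    have hsn : ‖s • w‖ < ε := by rw [norm_smul, Real.norm_eq_abs]; exact hs
    rw [cost, h.dist_exp x₀ hsn, norm_smul, Real.norm_eq_abs, mul_pow, sq_abs]
    ring
  have key := local_pos hΦs hpos
  have ht : Tendsto (fun q : M × M => (φ q.1, φ q.2)) (𝓝 (x₀, x₀)) (𝓝 (φ x₀, φ x₀)) := by
    have h1 : ContinuousAt φ x₀ := continuousAt_extChartAt x₀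
    have h2 : ContinuousAt (fun q : M × M => (φ q.1, φ q.2)) (x₀, x₀) :=
      (ContinuousAt.comp (f := Prod.fst) (x := ((x₀, x₀) : M × M)) h1 continuousAt_fst).prodMk
        (ContinuousAt.comp (f := Prod.snd) (x := ((x₀, x₀) : M × M)) h1 continuousAt_snd)
    exact h2
  have hs1 : ∀ᶠ q : M × M in 𝓝 (x₀, x₀), q.1 ∈ φ.source :=
    continuousAt_fst.eventually (extChartAt_source_mem_nhds (I := 𝓘(ℝ, E)) x₀)
  have hs2 : ∀ᶠ q : M × M in 𝓝 (x₀, x₀), q.2 ∈ φ.source :=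
    continuousAt_snd.eventually (extChartAt_source_mem_nhds (I := 𝓘(ℝ, E)) x₀)
  have hs3 : ∀ᶠ q : M × M in 𝓝 (x₀, x₀),
      q.2 ∈ (trivializationAt E (TangentSpace 𝓘(ℝ, E) : M → Type _) x₀).baseSet :=
    continuousAt_snd.eventually
      ((trivializationAt E (TangentSpace 𝓘(ℝ, E) : M → Type _) x₀).open_baseSet.mem_nhds hx₀)
  filter_upwards [ht.eventually key, hs1, hs2, hs3] with q hq h1 h2 h3 w
  obtain ⟨p, z⟩ := q
  simp only at hq h1 h2 h3 w ⊢
  set u : E := (trivializationAt E (TangentSpace 𝓘(ℝ, E) : M → Type _)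
    x₀).continuousLinearMapAt ℝ z w with hu
  have hwu : (trivializationAt E (TangentSpace 𝓘(ℝ, E) : M → Type _) x₀).symmL ℝ z u = w :=
    (trivializationAt E (TangentSpace 𝓘(ℝ, E) : M → Type _)
      x₀).symmL_continuousLinearMapAt h3 w
  have hp : φ.symm (φ p) = p := φ.left_inv h1
  have hz : φ.symm (φ z) = z := φ.left_inv h2
  have hval : ∀ v : E, Φ ((φ p, φ z), v) = cost p (e₀ z
      ((trivializationAt E (TangentSpace 𝓘(ℝ, E) : M → Type _) x₀).symmL ℝ z v)) := by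
    intro v
    show Psi e₀ x₀ ((φ.symm (φ p), φ.symm (φ z)), v) = _
    rw [hp, hz, Psi]
    show cost p (e₀ (vec x₀ (z, v)).proj (vec x₀ (z, v)).snd) = _
    rw [vec_eq h3]
  filter_upwards [hq u] with s hs
  rw [hval, hval, hval, map_zero, map_neg, map_smul, hwu, h.exp_zero] at hs
  exact hs

/-- The same with one radius. -/
theorem unif_geo [CompactSpace M] (h : NearExp ε e₀ L) : ∃ r₁ > 0, ∀ p z : M, dist p z < r₁ →
    ∀ w : TangentSpace 𝓘(ℝ, E) z, ∀ᶠ s in 𝓝 (0 : ℝ),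
      2 * cost p z ≤ cost p (e₀ z (s • w)) + cost p (e₀ z (-(s • w))) := by
  have h1 : {q : M × M | ∀ w : TangentSpace 𝓘(ℝ, E) q.2, ∀ᶠ s in 𝓝 (0 : ℝ),
      2 * cost q.1 q.2 ≤ cost q.1 (e₀ q.2 (s • w)) + cost q.1 (e₀ q.2 (-(s • w)))} ∈
      uniformity M := by
    rw [← nhdsSet_diagonal_eq_uniformity, mem_nhdsSet_iff_forall]
    rintro ⟨x, y⟩ hxy
    obtain rfl : x = y := hxy
    exact local_geo h x
  obtain ⟨r₁, hr₁, hr⟩ := Metric.mem_uniformity_dist.1 h1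
  exact ⟨r₁, hr₁, fun p z hpz => hr hpz⟩

/-- Two-sided parametrisation of a segment from an interior point. -/
theorem two_sided (h : NearExp ε e₀ L) (hU : LS.UniqSeg M ε) {x y : M} (hxy : dist x y < ε)
    {t : ℝ} (ht : 0 < t) (ht1 : t < 1) : ∃ w : TangentSpace 𝓘(ℝ, E) (LS.seg x y t),
      ∀ s : ℝ, 0 ≤ s → s ≤ t → s ≤ 1 - t →
        LS.seg x y (t + s) = e₀ (LS.seg x y t) (s • w) ∧
        LS.seg x y (t - s) = e₀ (LS.seg x y t) (-(s • w)) := by
  set z := LS.seg x y t with hz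
  set d := dist x y with hd
  have hd0 : 0 ≤ d := dist_nonneg
  have htI : t ∈ Icc (0 : ℝ) 1 := ⟨ht.le, ht1.le⟩
  have h1t : 0 < 1 - t := by linarith
  have e1 : dist x z = t * d := LS.dist_left_seg hU hxy htI
  have e2 : dist z y = (1 - t) * d := LS.dist_seg_right hU hxy htI
  have hzy : dist z y < ε := by rw [e2]; nlinarith
  have hzx : dist z x < ε := by rw [dist_comm, e1]; nlinarith
  have hc := no_corner h ht h1t e1 e2 (by ring) hxy
  refine ⟨(1 - t)⁻¹ • L z y, fun s hs0 hst hst1 => ⟨?_, ?_⟩⟩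
  · set a := s * (1 - t)⁻¹ with ha
    have haI : a ∈ Icc (0 : ℝ) 1 := by
      refine ⟨by positivity, ?_⟩
      rw [ha, ← div_eq_mul_inv, div_le_one h1t]
      exact hst1
    have hsI : t + s ∈ Icc (0 : ℝ) 1 := ⟨by linarith, by linarith⟩
    have has : a * (1 - t) = s := by rw [ha]; field_simp
    have f1 : dist z (LS.seg x y (t + s)) = a * dist z y := by
      rw [LS.dist_seg_seg hU hxy htI hsI, e2, ← mul_assoc, has,
        show |t - (t + s)| = s by rw [show t - (t + s) = -s by ring, abs_neg, abs_of_nonneg hs0]]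
    have f2 : dist (LS.seg x y (t + s)) y = (1 - a) * dist z y := by
      rw [LS.dist_seg_right hU hxy hsI, e2, ← mul_assoc]
      congr 1
      have : (1 - a) * (1 - t) = (1 - t) - a * (1 - t) := by ring
      rw [this, has]
      ring
    have := unique_point h haI hzy f1 f2
    rw [this, smul_smul]
  · set a := s * t⁻¹ with ha
    have haI : a ∈ Icc (0 : ℝ) 1 := by
      refine ⟨by positivity, ?_⟩
      rw [ha, ← div_eq_mul_inv, div_le_one ht]
      exact hst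
    have hsI : t - s ∈ Icc (0 : ℝ) 1 := ⟨by linarith, by linarith⟩
    have has : a * t = s := by rw [ha]; field_simp
    have f1 : dist z (LS.seg x y (t - s)) = a * dist z x := by
      rw [LS.dist_seg_seg hU hxy htI hsI, dist_comm z x, e1, ← mul_assoc, has,
        show |t - (t - s)| = s by rw [show t - (t - s) = s by ring, abs_of_nonneg hs0]]
    have f2 : dist (LS.seg x y (t - s)) x = (1 - a) * dist z x := by
      rw [dist_comm, LS.dist_left_seg hU hxy hsI, dist_comm z x, e1, ← mul_assoc]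
      congr 1
      have : (1 - a) * t = t - a * t := by ring
      rw [this, has]
    have := unique_point h haI hzx f1 f2
    rw [this]
    congr 1
    -- `a • L z x = -(s • (1 - t)⁻¹ • L z y)`
    have hc' : (1 - t) • L z x = -(t • L z y) := by rw [hc, neg_neg]
    have h3 : L z x = -(((1 - t)⁻¹ * t) • L z y) := by
      have h4 := congrArg (fun v => (1 - t)⁻¹ • v) hc'
      simp only [smul_smul, smul_neg] at h4
      rw [inv_mul_cancel₀ h1t.ne', one_smul] at h4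
      exact h4
    rw [h3, smul_neg, smul_smul, smul_smul]
    congr 2
    rw [ha]
    field_simp

/-- **[CONV]**, from the near exponential map. -/
theorem conv_of_near [CompactSpace M] (h : NearExp ε e₀ L) (hU : LS.UniqSeg M ε) :
    ∃ r0 > 0, 2 * r0 ≤ ε ∧ ConvR M r0 := by
  obtain ⟨r₁, hr₁, hgeo⟩ := unif_geo (E := E) h
  refine ⟨min (ε / 2) (r₁ / 4), lt_min (half_pos h.pos) (by linarith), ?_, ?_⟩
  · have := min_le_left (ε / 2) (r₁ / 4)
    linarith
  intro p x y r hr hpx hpy t ht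
  have hr1 : r < ε / 2 := hr.trans_le (min_le_left _ _)
  have hr2 : r < r₁ / 4 := hr.trans_le (min_le_right _ _)
  have hxy : dist x y ≤ 2 * r := by
    have := dist_triangle x p y
    rw [dist_comm x p] at this
    linarith
  have hxy' : dist x y < ε := by linarith
  by_contra hcon
  push Not at hcon
  set f : ℝ → ℝ := fun s => dist p (LS.seg x y s) with hf
  have hcont : ContinuousOn f (Icc 0 1) := by
    have h1 : ContinuousOn (fun s : ℝ => LS.seg x y s) (Icc 0 1) := by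
      intro s hs
      rw [Metric.continuousWithinAt_iff]
      intro η hη
      refine ⟨η / (dist x y + 1), by positivity, fun {s'} hs' hd => ?_⟩
      rw [LS.dist_seg_seg hU hxy' hs' hs]
      rw [Real.dist_eq] at hd
      have h0 : (0 : ℝ) ≤ dist x y := dist_nonneg
      calc |s' - s| * dist x y ≤ |s' - s| * (dist x y + 1) := by
            gcongr
            linarith
        _ < η / (dist x y + 1) * (dist x y + 1) := by
            gcongr
        _ = η := by field_simp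
    exact (continuous_const.dist continuous_id).comp_continuousOn h1
  obtain ⟨tm, htm, hmax⟩ := isCompact_Icc.exists_isMaxOn ⟨t, ht⟩ hcont
  set m := f tm with hm
  have hmr : r < m := hcon.trans_le (hmax ht)
  -- the first maximum
  set S : Set ℝ := Icc 0 1 ∩ f ⁻¹' {m} with hS
  have hSc : IsCompact S := by
    have : IsClosed S := hcont.preimage_isClosed_of_isClosed isClosed_Icc isClosed_singleton
    exact isCompact_Icc.of_isClosed_subset this inter_subset_left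
  have hSn : S.Nonempty := ⟨tm, htm, rfl⟩
  obtain ⟨t0, ht0, hmin⟩ := hSc.exists_isMinOn hSn continuousOn_id
  have hft0 : f t0 = m := ht0.2
  have hpos : 0 < t0 := by
    rcases ht0.1.1.eq_or_lt with h0 | h0
    · exfalso
      rw [← h0] at hft0
      have : f 0 = dist p x := by simp [hf]
      linarith
    · exact h0
  have hlt : t0 < 1 := by
    rcases ht0.1.2.eq_or_lt with h0 | h0
    · exfalso
      rw [h0] at hft0
      have : f 1 = dist p y := by simp [hf]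
      linarith
    · exact h0
  have hz : dist p (LS.seg x y t0) < r₁ := by
    have h1 := dist_triangle p x (LS.seg x y t0)
    rw [LS.dist_left_seg hU hxy' ht0.1] at h1
    have h2 : t0 * dist x y ≤ 1 * dist x y := by
      gcongr
    linarith
  obtain ⟨w, hw⟩ := two_sided h hU hxy' hpos hlt
  have hev := hgeo p _ hz w
  obtain ⟨δ, hδ, hs⟩ := Metric.eventually_nhds_iff.1 hev
  set s := min (δ / 2) (min t0 (1 - t0)) with hsdef
  have hs0 : 0 < s := lt_min (by linarith) (lt_min hpos (by linarith))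
  have hst : s ≤ t0 := (min_le_right _ _).trans (min_le_left _ _)
  have hst1 : s ≤ 1 - t0 := (min_le_right _ _).trans (min_le_right _ _)
  have hsδ : dist s 0 < δ := by
    rw [Real.dist_eq, sub_zero, abs_of_pos hs0]
    have := min_le_left (δ / 2) (min t0 (1 - t0))
    linarith
  have h2 := hs hsδ
  obtain ⟨g1, g2⟩ := hw s hs0.le hst hst1
  rw [← g1, ← g2] at h2
  have hm0 : 0 ≤ m := by rw [hm]; exact dist_nonneg
  have k1 : f (t0 + s) ≤ m := hmax ⟨by linarith, by linarith⟩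
  have k2 : f (t0 - s) ≤ m := hmax ⟨by linarith, by linarith⟩
  have k3 : f (t0 - s) ≠ m := by
    intro h3
    have h4 : t0 - s ∈ S := ⟨⟨by linarith, by linarith⟩, h3⟩
    have h5 : t0 ≤ t0 - s := hmin h4
    linarith
  have k4 : f (t0 - s) < m := lt_of_le_of_ne k2 k3
  have k5 : 0 ≤ f (t0 - s) := dist_nonneg
  have k6 : 0 ≤ f (t0 + s) := dist_nonneg
  have h6 : 2 * (m ^ 2 / 2) ≤ f (t0 + s) ^ 2 / 2 + f (t0 - s) ^ 2 / 2 := by
    rw [← hft0]
    exact h2
  nlinarith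

end

end Conv

open Conv in
/-- **[CONV]** -/
theorem exists_conv {E : Type*} [NormedAddCommGroup E] [NormedSpace ℝ E] [FiniteDimensional ℝ E]
    {M : Type*} [MetricSpace M] [CompactSpace M] [ChartedSpace E M]
    [RiemannianBundle (fun x : M => TangentSpace 𝓘(ℝ, E) x)]
    [IsManifold 𝓘(ℝ, E) ∞ M]
    [IsContMDiffRiemannianBundle 𝓘(ℝ, E) ∞ E (fun x : M => TangentSpace 𝓘(ℝ, E) x)]
    [IsRiemannianManifold 𝓘(ℝ, E) M] :
    ∃ ρ > 0, LS.UniqSeg M ρ ∧ ∃ r0 > 0, 2 * r0 ≤ ρ ∧ ConvR M r0 := by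
  rcases isEmpty_or_nonempty M with hM | hM
  · exact ⟨1, one_pos, fun x => (hM.false x).elim, 1 / 2, by norm_num, by norm_num,
      fun p => (hM.false p).elim⟩
  · obtain ⟨ε, e₀, L, h⟩ := Geo.exists_near (E := E) (M := M)
    have hU : LS.UniqSeg M ε := fun x y hxy t ht =>
      ⟨e₀ x (t • L x y), Geo.dist_point h ht hxy, fun z hz =>
        Geo.unique_point h ht hxy hz.1 hz.2⟩
    exact ⟨ε, h.pos, hU, conv_of_near h hU⟩

end Vale.Agent.P216.H670
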