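import Vale.Agent.P216.D246.Span2
import Vale.Agent.P216.AS.MVSets

/-!
# P216-D, block [ORI] : the integration functional of a coherently oriented compact space

`β` is a family of closed sets `A b` of the compact space `M` (complements of small open boxes)
whose complements form a base of the topology, `H^n (M, A b)` is a line with generator `g b`,
compatible with the restrictions. Then there is a functional on `H^n (M)` with value `1` on the
images of all `g b`.
-/

set_option linter.all false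

open Set Filter Topology

namespace Vale.Agent.P216.H670.OriF

open Vale.Agent.P216.AS Vale.Agent.P216.H901 Vale.Agent.P216.H83 Vale.Agent.P216.H133C
  Vale.Agent.P216.C313 Vale.Agent.P216.D246

variable {M : Type} [MetricSpace M] [CompactSpace M] {k : Type} [Field k] {n : ℕ}

theorem resR_res {A B C : Set M} (h : B ⊆ A) (h' : C ⊆ B) (q : ℕ)
    (x : Hr (tr M) (on k) (univ : Set M) A q) :
    resR (subset_rfl : (univ : Set M) ⊆ univ) h' q (resR subset_rfl h q x) =
      resR subset_rfl (h'.trans h) q x := by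
  obtain ⟨c, hc, rfl⟩ := H.exists_mk x
  rfl

/-- Relative Mayer-Vietoris, exactness in the middle. -/
theorem mv_mid (h2 : (2 : k) ≠ 0) {A L : Set M} (cA : IsCompact A) (cL : IsCompact L) (q : ℕ)
    (z1 : Hr (tr M) (on k) (univ : Set M) A q) (z2 : Hr (tr M) (on k) (univ : Set M) L q)
    (h : resR subset_rfl (inter_subset_left : A ∩ L ⊆ A) q z1 =
      resR subset_rfl (inter_subset_right : A ∩ L ⊆ L) q z2) :
    ∃ y : Hr (tr M) (on k) (univ : Set M) (A ∪ L) q,
      resR subset_rfl subset_union_left q y = z1 ∧ resR subset_rfl subset_union_right q y = z2 := by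
  set T := Zr (tr M) (on k) (univ : Set M) univ with hT
  have hs := Zr_sup (k := k) (χ := on k) (X := (univ : Set M)) (B := L)
    (inv_tr A : Inv (tr M) A)
  have hTA : T ≤ Zr (tr M) (on k) univ A := Zr_anti le_rfl (subset_univ _)
  have hTL : T ≤ Zr (tr M) (on k) univ L := Zr_anti le_rfl (subset_univ _)
  have e := mv_exact_AB (R₁ := Zr (tr M) (on k) (univ : Set M) A)
    (R₂ := Zr (tr M) (on k) (univ : Set M) L) (S₁ := T) (S₂ := T) q hTA hTL
  have h0 : mvB (Zr (tr M) (on k) (univ : Set M) A) T (Zr (tr M) (on k) (univ : Set M) L) T q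
      (z1, z2) = 0 := by
    obtain ⟨x, hx, rfl⟩ := H.exists_mk z1
    obtain ⟨y, hy, rfl⟩ := H.exists_mk z2
    rw [mvB_mk, H.mk_eq_zero]
    have h3 : (H.mk x (Zc_mono (Zr_anti le_rfl inter_subset_left) le_rfl q hx) :
        Hr (tr M) (on k) (univ : Set M) (A ∩ L) q) =
        H.mk y (Zc_mono (Zr_anti le_rfl inter_subset_right) le_rfl q hy) := h
    rw [H.mk_eq_mk] at h3
    have h4 : Zr (tr M) (on k) (univ : Set M) A ⊔ Zr (tr M) (on k) (univ : Set M) L =
      Zr (tr M) (on k) (univ : Set M) (A ∩ L) := hs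
    rw [h4, sup_idem]
    exact h3
  obtain ⟨c, hc⟩ := (e (z1, z2)).1 h0
  have hb := union_bijective (k := k) (χ := on k) (a := tr M) (W := (univ : Set M)) (A := univ)
    (B := univ) (A' := A) (B' := L) (tw_tr h2 _) (inv_tr _) isCompact_univ isCompact_univ cA cL
    subset_rfl subset_rfl (subset_univ _) (subset_univ _) (inv_tr _) (inv_tr _) (inv_tr _)
    (inv_tr _) q
  obtain ⟨y0, hy0⟩ := hb.2 c
  have hu : (univ : Set M) ⊆ univ ∪ univ := subset_union_left
  refine ⟨Hinc (le_refl _) (Zr_anti le_rfl hu) q y0, ?_, ?_⟩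
  · have h5 := congrArg Prod.fst hc
    rw [← hy0] at h5
    obtain ⟨x, hx, rfl⟩ := H.exists_mk y0
    exact h5
  · have h5 := congrArg Prod.snd hc
    rw [← hy0] at h5
    obtain ⟨x, hx, rfl⟩ := H.exists_mk y0
    exact h5

/-- A coherently oriented base of small open sets (`A b` = the complements). -/
structure OBase (M : Type) [MetricSpace M] (k : Type) [Field k] (n : ℕ) (β : Type) where
  A : β → Set M
  cpt : ∀ b, IsCompact (A b)
  ne : ∀ b, A b ≠ univ
  base : ∀ (x : M) (U : Set M), IsOpen U → x ∈ U → ∃ b, x ∉ A b ∧ (A b)ᶜ ⊆ U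
  noH : ∀ b (L : Set M), IsCompact L → NoH k (univ : Set M) (A b ∪ L) (n + 1)
  g : ∀ b, Hr (tr M) (on k) (univ : Set M) (A b) n
  g_ne : ∀ b, g b ≠ 0
  line : ∀ b (x : Hr (tr M) (on k) (univ : Set M) (A b) n), ∃ a : k, x = a • g b
  res_g : ∀ b b' (h : A b ⊆ A b'), resR subset_rfl h n (g b') = g b

variable {β : Type} (O : OBase M k n β)

namespace OBase

/-- The intersection of finitely many `A b`. -/
def I (T : Finset β) : Set M := {a | ∀ b ∈ T, a ∈ O.A b}

omit [CompactSpace M] in
theorem cptI [CompactSpace M] (T : Finset β) : IsCompact (O.I T) := by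
  have : O.I T = ⋂ b ∈ T, O.A b := by
    ext a
    simp [I]
  rw [this]
  exact (isClosed_biInter fun b _ => (O.cpt b).isClosed).isCompact

/-- The span of the images of the generators. -/
def Sp (N : Set M) : Submodule k (Hr (tr M) (on k) (univ : Set M) N n) :=
  Submodule.span k {y | ∃ (b : β) (h : N ⊆ O.A b), y = resR subset_rfl h n (O.g b)}

theorem sp_res {N N' : Set M} (h : N ⊆ N') {y : Hr (tr M) (on k) (univ : Set M) N' n}
    (hy : y ∈ O.Sp N') : resR subset_rfl h n y ∈ O.Sp N := by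
  refine Submodule.span_induction (p := fun y _ => resR subset_rfl h n y ∈ O.Sp N) ?_ ?_ ?_ ?_ hy
  · rintro _ ⟨b, hb, rfl⟩
    rw [resR_res hb h]
    exact Submodule.subset_span ⟨b, h.trans hb, rfl⟩
  · rw [map_zero]
    exact Submodule.zero_mem _
  · intro x y _ _ hx hy
    rw [map_add]
    exact Submodule.add_mem _ hx hy
  · intro a x _ hx
    rw [map_smul]
    exact Submodule.smul_mem _ _ hx

theorem span_I (h2 : (2 : k) ≠ 0) (T : Finset β) :
    ∀ z : Hr (tr M) (on k) (univ : Set M) (O.I T) n, z ∈ O.Sp (O.I T) := by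
  classical
  induction T using Finset.induction_on with
  | empty =>
    intro z
    have e : ∀ (A : Set M) (_ : A = univ) (z : Hr (tr M) (on k) (univ : Set M) A n),
        z ∈ O.Sp A := by
      rintro A rfl z
      rw [show z = 0 from noH_self _ _ z]
      exact Submodule.zero_mem _
    refine e _ ?_ z
    ext a
    simp [I]
  | insert b T hb ih =>
    intro z
    have hsub : O.A b ∩ O.I T ⊆ O.I (insert b T) := by
      rintro a ⟨h1, h3⟩ b' hb'
      rcases Finset.mem_insert.1 hb' with rfl | h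
      · exact h1
      · exact h3 b' h
    have hsub' : O.I (insert b T) ⊆ O.A b ∩ O.I T :=
      fun a ha => ⟨ha b (Finset.mem_insert_self _ _), fun b' hb' => ha b' (Finset.mem_insert_of_mem hb')⟩
    obtain ⟨z1, z2, hz⟩ := decomp h2 (O.cpt b) (O.cptI T) (subset_univ _)
      (subset_univ _) n (O.noH b _ (O.cptI T)) (resR subset_rfl hsub n z)
    have e : z = resR subset_rfl hsub' n (resR subset_rfl hsub n z) := by
      rw [resR_res]
      exact (Hinc_refl _ _ z).symm
    rw [e, hz, map_add, resR_res, resR_res]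
    refine Submodule.add_mem _ ?_ (O.sp_res _ (ih z2))
    obtain ⟨a, rfl⟩ := O.line b z1
    rw [map_smul]
    exact Submodule.smul_mem _ _ (Submodule.subset_span ⟨b, _, rfl⟩)

/-- A finite family covering a compact set. -/
theorem exists_T {N K : Set M} (hN : IsClosed N) (hK : IsCompact K) (h : Disjoint K N) :
    ∃ T : Finset β, N ⊆ O.I T ∧ O.I T ⊆ Kᶜ := by
  classical
  have h1 : ∀ x ∈ K, ∃ b, x ∉ O.A b ∧ (O.A b)ᶜ ⊆ Nᶜ := fun x hx =>
    O.base x Nᶜ hN.isOpen_compl (fun hxN => (Set.disjoint_left.1 h) hx hxN)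
  rcases K.eq_empty_or_nonempty with rfl | ⟨x0, hx0⟩
  · exact ⟨∅, fun a _ b hb => by simp at hb, by simp⟩
  haveI : Nonempty β := ⟨(h1 x0 hx0).choose⟩
  choose! B hB hB' using h1
  obtain ⟨T, hT, hT'⟩ := hK.elim_nhds_subcover (fun x => (O.A (B x))ᶜ)
    fun x hx => (O.cpt (B x)).isClosed.isOpen_compl.mem_nhds (hB x hx)
  refine ⟨T.image B, fun a ha b hb => ?_, fun a ha haK => ?_⟩
  · obtain ⟨x, hx, rfl⟩ := Finset.mem_image.1 hb
    by_contra hcon
    exact hB' x (hT x hx) hcon ha
  · obtain ⟨x, hx, hx'⟩ := mem_iUnion₂.1 (hT' haK)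
    exact hx' (ha _ (Finset.mem_image_of_mem _ hx))

/-- **Spanning.** -/
theorem span_all (h2 : (2 : k) ≠ 0) {N : Set M} (hN : IsCompact N)
    (z : Hr (tr M) (on k) (univ : Set M) N n) : z ∈ O.Sp N := by
  obtain ⟨ε, hε, h⟩ := exists_relative_nhd (k := k) (χ := on k) (tw_tr h2 _) (inv_tr _) hN
    (subset_univ _) (inv_tr _) z
  have hop : IsOpen (Nb (univ : Set M) N ε) := by
    have : Nb (univ : Set M) N ε = ⋃ y ∈ N, Metric.ball y ε := by
      ext x
      simp [Nb]
    rw [this]
    exact isOpen_biUnion fun y _ => Metric.isOpen_ball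
  obtain ⟨T, hT, hT'⟩ := O.exists_T (K := (Nb (univ : Set M) N ε)ᶜ) hN.isClosed
    hop.isClosed_compl.isCompact (Set.disjoint_left.2 fun x hx hxN => hx
      ⟨mem_univ _, x, hxN, by simpa using hε⟩)
  rw [compl_compl] at hT'
  obtain ⟨_, y, rfl⟩ := h (O.I T) hT hT'
  exact O.sp_res _ (O.span_I h2 T y)

/-- The functional on `H^n (M, N)` with value `1` on all generators. -/
def IsF (N : Set M) (Φ : Hr (tr M) (on k) (univ : Set M) N n →ₗ[k] k) : Prop :=
  ∀ b (h : N ⊆ O.A b), Φ (resR subset_rfl h n (O.g b)) = 1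

theorem unique (h2 : (2 : k) ≠ 0) {N : Set M} (hN : IsCompact N)
    {Φ Ψ : Hr (tr M) (on k) (univ : Set M) N n →ₗ[k] k} (h : O.IsF N Φ) (h' : O.IsF N Ψ) :
    Φ = Ψ := by
  ext z
  have hz := O.span_all h2 hN z
  refine Submodule.span_induction (p := fun y _ => Φ y = Ψ y) ?_ ?_ ?_ ?_ hz
  · rintro _ ⟨b, hb, rfl⟩
    rw [h b hb, h' b hb]
  · rw [map_zero, map_zero]
  · intro x y _ _ hx hy
    rw [map_add, map_add, hx, hy]
  · intro a x _ hx
    rw [map_smul, map_smul, hx]

theorem IsF.anti {N N' : Set M} (h : N ⊆ N')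
    {Φ : Hr (tr M) (on k) (univ : Set M) N n →ₗ[k] k} (hΦ : O.IsF N Φ) :
    O.IsF N' (Φ ∘ₗ resR subset_rfl h n) := by
  intro b hb
  rw [LinearMap.comp_apply, resR_res hb h]
  exact hΦ b _

/-- Comparison with the generator of a box. -/
theorem key (h2 : (2 : k) ≠ 0) {A : Set M} (cA : IsCompact A)
    {Φ : Hr (tr M) (on k) (univ : Set M) A n →ₗ[k] k} (hΦ : O.IsF A Φ) (b : β)
    (x : Hr (tr M) (on k) (univ : Set M) (A ∪ O.A b) n) :
    resR subset_rfl subset_union_right n x = Φ (resR subset_rfl subset_union_left n x) • O.g b := by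
  have hz := O.span_all h2 (cA.union (O.cpt b)) x
  refine Submodule.span_induction (p := fun x _ => resR subset_rfl subset_union_right n x =
    Φ (resR subset_rfl subset_union_left n x) • O.g b) ?_ ?_ ?_ ?_ hz
  · rintro _ ⟨b', hb', rfl⟩
    rw [resR_res, resR_res, hΦ, one_smul, O.res_g]
  · rw [map_zero, map_zero, map_zero, zero_smul]
  · intro x y _ _ hx hy
    rw [map_add, map_add, map_add, add_smul, hx, hy]
  · intro a x _ hx
    rw [map_smul, map_smul, map_smul, hx, smul_assoc]

/-- **Gluing.** -/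
theorem glue (h2 : (2 : k) ≠ 0) {A L : Set M} (cA : IsCompact A) (cL : IsCompact L)
    (h0 : ∀ N : Set M, IsCompact N → NoH k (univ : Set M) (A ∪ N) (n + 1))
    {ΦA : Hr (tr M) (on k) (univ : Set M) A n →ₗ[k] k} (hA : O.IsF A ΦA)
    {ΦL : Hr (tr M) (on k) (univ : Set M) L n →ₗ[k] k} (hL : O.IsF L ΦL) :
    ∃ Φ : Hr (tr M) (on k) (univ : Set M) (A ∩ L) n →ₗ[k] k, O.IsF (A ∩ L) Φ := by
  have hu : ΦA ∘ₗ resR subset_rfl subset_union_left n =
      ΦL ∘ₗ resR subset_rfl subset_union_right n :=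
    O.unique h2 (cA.union cL) (IsF.anti O subset_union_left hA) (IsF.anti O subset_union_right hL)
  have hd := fun z => decomp h2 cA cL (subset_univ _) (subset_univ _) n (h0 L cL) z
  choose d1 d2 hd using hd
  -- well-definedness
  have hw : ∀ z1 z2, resR subset_rfl (inter_subset_left : A ∩ L ⊆ A) n z1 +
      resR subset_rfl (inter_subset_right : A ∩ L ⊆ L) n z2 = 0 → ΦA z1 + ΦL z2 = 0 := by
    intro z1 z2 h
    obtain ⟨y, hy1, hy2⟩ := mv_mid h2 cA cL n z1 (-z2) (by
      rw [map_neg]
      exact eq_neg_of_add_eq_zero_left h)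
    have h3 := LinearMap.congr_fun hu y
    rw [LinearMap.comp_apply, LinearMap.comp_apply, hy1, hy2, map_neg] at h3
    rw [h3, neg_add_cancel]
  have hw' : ∀ z z1 z2, z = resR subset_rfl (inter_subset_left : A ∩ L ⊆ A) n z1 +
      resR subset_rfl (inter_subset_right : A ∩ L ⊆ L) n z2 →
      ΦA (d1 z) + ΦL (d2 z) = ΦA z1 + ΦL z2 := by
    intro z z1 z2 h
    have h3 := hw (d1 z - z1) (d2 z - z2) (by
      rw [map_sub, map_sub]
      have := (hd z).symm.trans h
      rw [sub_add_sub_comm, this, sub_self])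
    rw [map_sub, map_sub] at h3
    rw [sub_add_sub_comm, sub_eq_zero] at h3
    exact h3
  let Φ : Hr (tr M) (on k) (univ : Set M) (A ∩ L) n →ₗ[k] k :=
    { toFun := fun z => ΦA (d1 z) + ΦL (d2 z)
      map_add' := fun x y => by
        rw [hw' (x + y) (d1 x + d1 y) (d2 x + d2 y) (by
          rw [map_add, map_add, add_add_add_comm, ← hd, ← hd]), map_add, map_add,
          add_add_add_comm]
      map_smul' := fun a x => by
        rw [hw' (a • x) (a • d1 x) (a • d2 x) (by
          rw [map_smul, map_smul, ← smul_add, ← hd]), map_smul, map_smul, RingHom.id_apply,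
          smul_add] }
  refine ⟨Φ, fun b hb => ?_⟩
  have hsub : (A ∪ O.A b) ∩ (L ∪ O.A b) ⊆ O.A b := by
    rw [← inter_union_distrib_right]
    exact union_subset hb subset_rfl
  obtain ⟨x1, x2, hx⟩ := decomp h2 (cA.union (O.cpt b)) (cL.union (O.cpt b)) (subset_univ _)
    (subset_univ _) n (by
      have := h0 (O.A b ∪ (L ∪ O.A b)) ((O.cpt b).union (cL.union (O.cpt b)))
      rwa [← union_assoc] at this) (resR subset_rfl hsub n (O.g b))
  have hb1 : O.A b ⊆ (A ∪ O.A b) ∩ (L ∪ O.A b) := fun x hx => ⟨Or.inr hx, Or.inr hx⟩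
  have e1 : O.g b = resR subset_rfl subset_union_right n x1 +
      resR subset_rfl subset_union_right n x2 := by
    have := congrArg (resR subset_rfl hb1 n) hx
    rw [map_add, resR_res, resR_res, resR_res] at this
    rw [← this]
    exact (Hinc_refl _ _ _).symm
  have hb2 : A ∩ L ⊆ (A ∪ O.A b) ∩ (L ∪ O.A b) := fun x hx => ⟨Or.inl hx.1, Or.inl hx.2⟩
  have e2 : resR subset_rfl hb n (O.g b) =
      resR subset_rfl (inter_subset_left : A ∩ L ⊆ A) n (resR subset_rfl subset_union_left n x1) +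
      resR subset_rfl (inter_subset_right : A ∩ L ⊆ L) n
        (resR subset_rfl subset_union_left n x2) := by
    have := congrArg (resR subset_rfl hb2 n) hx
    rw [map_add, resR_res, resR_res, resR_res] at this
    rw [this, resR_res, resR_res]
  rw [O.key h2 cA hA b x1, O.key h2 cL hL b x2, ← add_smul] at e1
  have e3 : ΦA (resR subset_rfl subset_union_left n x1) +
      ΦL (resR subset_rfl subset_union_left n x2) = 1 := by
    by_contra hne
    apply O.g_ne b
    have h5 : (ΦA (resR subset_rfl subset_union_left n x1) +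
      ΦL (resR subset_rfl subset_union_left n x2) - 1) • O.g b = 0 := by
      rw [sub_smul, one_smul, ← e1, sub_self]
    exact (smul_eq_zero.1 h5).resolve_left (sub_ne_zero.2 hne)
  exact (hw' _ _ _ e2).trans e3

theorem exists_F (h2 : (2 : k) ≠ 0) (T : Finset β) :
    ∃ Φ : Hr (tr M) (on k) (univ : Set M) (O.I T) n →ₗ[k] k, O.IsF (O.I T) Φ := by
  classical
  induction T using Finset.induction_on with
  | empty =>
    refine ⟨0, fun b hb => ?_⟩
    exfalso
    apply O.ne b
    refine eq_univ_of_univ_subset fun a _ => hb ?_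
    intro b hb
    simp at hb
  | insert b T hb ih =>
    obtain ⟨Φ, hΦ⟩ := ih
    have e : O.I (insert b T) = O.A b ∩ O.I T := by
      ext a
      simp [I]
    rw [e]
    -- the functional of the box
    have hl : ∀ x, ∃ a : k, x = a • O.g b := O.line b
    choose f hf using hl
    have hinj : ∀ a a' : k, a • O.g b = a' • O.g b → a = a' := by
      intro a a' h
      have : (a - a') • O.g b = 0 := by rw [sub_smul, h, sub_self]
      exact sub_eq_zero.1 ((smul_eq_zero.1 this).resolve_right (O.g_ne b))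
    let F : Hr (tr M) (on k) (univ : Set M) (O.A b) n →ₗ[k] k :=
      { toFun := f
        map_add' := fun x y => hinj _ _ (by rw [← hf, add_smul, ← hf, ← hf])
        map_smul' := fun a x => hinj _ _ (by
          rw [← hf, RingHom.id_apply, smul_assoc, ← hf]) }
    have hF : O.IsF (O.A b) F := by
      intro b' hb'
      rw [O.res_g]
      exact hinj _ _ (by rw [one_smul]; exact (hf _).symm)
    exact O.glue h2 (O.cpt b) (O.cptI T) (O.noH b) hF hΦ

/-- **Integration.** -/
theorem exists_integral (h2 : (2 : k) ≠ 0) :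
    ∃ Φ : Hr (tr M) (on k) (univ : Set M) ∅ n →ₗ[k] k,
      ∀ b, Φ (resR subset_rfl (empty_subset _) n (O.g b)) = 1 := by
  obtain ⟨T, hT, hT'⟩ := O.exists_T (N := (∅ : Set M)) (K := (univ : Set M)) isClosed_empty
    isCompact_univ (Set.disjoint_empty _)
  obtain ⟨Φ, hΦ⟩ := O.exists_F h2 T
  have e : O.I T ⊆ (∅ : Set M) := by rwa [compl_univ] at hT'
  refine ⟨Φ ∘ₗ resR subset_rfl e n, fun b => ?_⟩
  rw [LinearMap.comp_apply, resR_res]
  exact hΦ b _

include O in
/-- **`H^n (M) ≠ 0`.** -/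
theorem exists_ne [Nonempty M] (h2 : (2 : k) ≠ 0) :
    ∃ ω : Hr (tr M) (on k) (univ : Set M) ∅ n, ω ≠ 0 := by
  obtain ⟨Φ, hΦ⟩ := O.exists_integral h2
  obtain ⟨b, -, -⟩ := O.base (Classical.arbitrary M) univ isOpen_univ (mem_univ _)
  refine ⟨resR subset_rfl (empty_subset _) n (O.g b), fun h => ?_⟩
  have := hΦ b
  rw [h, map_zero] at this
  exact zero_ne_one this

end OBase

end Vale.Agent.P216.H670.OriF
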