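import Vale.Agent.P216.H670.OriF
import Vale.Agent.P216.H456D.Ori2
import Vale.Agent.P216.H456D.Base2
import Vale.Agent.P216.H269D.H1G

/-!
# P216-D, block [ORI] : the top cohomology of a closed simply connected manifold is not zero
-/

set_option linter.all false

open Set Filter Topology

namespace Vale.Agent.P216.H670.OriM

open Vale.Agent.P216.AS Vale.Agent.P216.H901 Vale.Agent.P216.H83 Vale.Agent.P216.H133C
  Vale.Agent.P216.C313 Vale.Agent.P216.D246 Vale.Agent.P216.H456D Vale.Agent.P216.H670.OriF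
  Vale.Agent.P216.Sl Vale.Agent.P216.PS

variable {M : Type} [MetricSpace M] [CompactSpace M] {k : Type} [Field k] {n : ℕ}

theorem noH_A1 (h2 : (2 : k) ≠ 0) {c : Cub M n} {v : Fin n → ℝ} {δ : ℝ} (hb : ‖v‖ + δ ≤ 2)
    {L : Set M} (cL : IsCompact L) {m : ℕ} (hm : n < m) (hm1 : 2 ≤ m) :
    NoH k (univ : Set M) (c.A1 v δ ∪ L) m := by
  have cA : IsCompact (c.A1 v δ ∪ L) := (Cub.compact_A1 hb).union cL
  refine noH_exc h2 cA (Cub.compact_Bx (c := c) (δ := 2)) ?_ rfl m
    (noH_Bx' h2 le_rfl (cA.inter Cub.compact_Bx) inter_subset_right hm hm1)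
  ext a
  refine ⟨fun _ => ?_, fun _ => mem_univ _⟩
  by_cases h : a ∈ c.D
  · exact Or.inr ⟨h, c.φ_le a h⟩
  · exact Or.inl (Or.inl fun hD => absurd hD h)

/-- The oriented base. -/
def obase (h2 : (2 : k) ≠ 0) (hn : 1 ≤ n) (loc : LocEuc M n) {ε : ℝ} (hε : 0 < ε)
    (g : ∀ B : Box M n, Hr (tr M) (on k) (univ : Set M) B.A n) (hg : ∀ B, g B ≠ 0)
    (hr : ∀ (B B' : Box M n) (h : B.A ⊆ B'.A), Small ε B → resR subset_rfl h n (g B') = g B) :
    OBase M k n {B : Box M n // Small ε B} where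
  A := fun B => B.1.A
  cpt := fun B => B.1.isCompact_A
  ne := fun B h => B.1.p_notMem (h ▸ mem_univ _)
  base := by
    intro x U hU hx
    obtain ⟨c, hc, hc0⟩ := loc x
    obtain ⟨B, -, hxB, hs⟩ := exists_box_in (U := U ∩ Metric.ball x (ε / 2))
      (hU.inter Metric.isOpen_ball) ⟨hx, Metric.mem_ball_self (half_pos hε)⟩ hc
      (by rw [hc0, norm_zero]; exact two_pos)
    have h1 : ∀ a ∉ B.A, a ∈ U ∩ Metric.ball x (ε / 2) := by
      intro a ha
      by_contra h
      exact ha (hs h)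
    refine ⟨⟨B, fun a ha b hb => ?_⟩, hxB, fun a ha => (h1 a ha).1⟩
    have h3 := (h1 a ha).2
    have h4 := (h1 b hb).2
    have := dist_triangle_right a b x
    rw [Metric.mem_ball] at h3 h4
    linarith
  noH := fun B L cL => noH_A1 h2 B.1.hb cL (Nat.lt_succ_self n) (by omega)
  g := fun B => g B.1
  g_ne := fun B => hg B.1
  line := by
    intro B x
    obtain ⟨a, ha⟩ := B.1.g_span h2 x
    obtain ⟨b, hb⟩ := B.1.g_span h2 (g B.1)
    have hb0 : b ≠ 0 := by
      rintro rfl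
      rw [zero_smul] at hb
      exact hg B.1 hb
    refine ⟨a * b⁻¹, ?_⟩
    rw [ha, hb, smul_smul, mul_assoc, inv_mul_cancel₀ hb0, mul_one]
  res_g := fun B B' h => hr B.1 B'.1 h B.2

/-- **Integration** on a compact locally euclidean space with `H^1 (M; kˣ) = 0`: a functional on
`H^n (M)` and compatible generators `g B` of the box groups with integral `1` (small boxes). -/
theorem exists_int (h2 : (2 : k) ≠ 0) (hn : 1 ≤ n) (loc : LocEuc M n) (hG : H1G M kˣ) :
    ∃ (Φ : Hr (tr M) (on k) (univ : Set M) ∅ n →ₗ[k] k) (ε : ℝ)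
      (g : ∀ B : Box M n, Hr (tr M) (on k) (univ : Set M) B.A n), 0 < ε ∧
      (∀ B, g B ≠ 0) ∧
      (∀ (B B' : Box M n) (h : B.A ⊆ B'.A), Small ε B → resR subset_rfl h n (g B') = g B) ∧
      ∀ B, Small ε B → Φ (resR subset_rfl (empty_subset _) n (g B)) = 1 := by
  obtain ⟨ε, hε, g, hg, hr⟩ := exists_ori h2 loc hG
  obtain ⟨Φ, hΦ⟩ := (obase h2 hn loc hε g hg hr).exists_integral h2
  exact ⟨Φ, ε, g, hε, hg, hr, fun B hB => hΦ ⟨B, hB⟩⟩

/-- **`H^n (M; k) ≠ 0`** -/
theorem exists_ne_zero [Nonempty M] (h2 : (2 : k) ≠ 0) (hn : 1 ≤ n) (loc : LocEuc M n)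
    (hG : H1G M kˣ) : ∃ ω : Hr (tr M) (on k) (univ : Set M) ∅ n, ω ≠ 0 := by
  obtain ⟨ε, hε, g, hg, hr⟩ := exists_ori h2 loc hG
  exact (obase h2 hn loc hε g hg hr).exists_ne h2

/-- List form: a cocycle of degree `n` which is not exact. -/
theorem exists_cocL [Nonempty M] (h2 : (2 : k) ≠ 0) (hn : 1 ≤ n) (loc : LocEuc M n)
    (hG : H1G M kˣ) : ∃ w : List M → k, CocL (univ : Set M) n w ∧ ¬ ExL (univ : Set M) n w := by
  obtain ⟨ω, hω⟩ := exists_ne_zero h2 hn loc hG
  obtain ⟨x, hx, rfl⟩ := H.exists_mk ω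
  refine ⟨toL x, cocL_toL hx, fun h => hω ?_⟩
  rw [mk_eq_absE hx, cls_eq_zero.2 h, map_zero]

theorem h1G (M : Type) [MetricSpace M] [CompactSpace M] [SimplyConnectedSpace M]
    [LocallyPathConnectedSpace M] (G : Type) [Group G] : H1G M G := fun f r hr hf =>
  H269D.h1g (fun x y z => hf x y z) hr

/-- **The top cohomology of a closed simply connected manifold.** -/
theorem exists_top [SimplyConnectedSpace M] [LocallyPathConnectedSpace M] (h2 : (2 : k) ≠ 0)
    (hn : 1 ≤ n) (loc : LocEuc M n) :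
    ∃ w : List M → k, CocL (univ : Set M) n w ∧ ¬ ExL (univ : Set M) n w := by
  haveI : Nonempty M := inferInstance
  exact exists_cocL h2 hn loc (h1G M kˣ)

end Vale.Agent.P216.H670.OriM
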