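import Vale.Agent.P265.H336.AS

/-! The double prism of three maps, on functions of tuples: it is a homotopy between
`P₀₁ + P₁₂` and `P₀₂`, and it computes the composition of two prisms. -/

open Set Matrix

namespace Vale.Agent.P265.AS

variable {E E' E'' : Type} {k : Type} [Field k]

/-- The double prism of three maps: the signed sum over `i ≤ j` of
`c (f₀ x₀, ..., f₀ xᵢ, f₁ xᵢ, ..., f₁ xⱼ, f₂ xⱼ, ...)`. -/
def dprism (f₀ f₁ f₂ : E → E') : {n : ℕ} → ((Fin (n + 2) → E') → k) → ((Fin n → E) → k)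
  | 0, _, _ => 0
  | _ + 1, c, x => prism f₁ f₂ (fun y => c (vecCons (f₀ (vecHead x)) y)) x +
      dprism f₀ f₁ f₂ (fun y => c (vecCons (f₀ (vecHead x)) y)) (vecTail x)

theorem dprism_cons (f₀ f₁ f₂ : E → E') {n : ℕ} (c : (Fin (n + 3) → E') → k) (a : E)
    (x : Fin n → E) : dprism f₀ f₁ f₂ c (vecCons a x) =
      prism f₁ f₂ (fun y => c (vecCons (f₀ a) y)) (vecCons a x) +
      dprism f₀ f₁ f₂ (fun y => c (vecCons (f₀ a) y)) x := by
  simp only [dprism, tail_cons, head_cons]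

theorem dprism_add (f₀ f₁ f₂ : E → E') {n : ℕ} (c c' : (Fin (n + 2) → E') → k) :
    dprism f₀ f₁ f₂ (c + c') = dprism f₀ f₁ f₂ c + dprism f₀ f₁ f₂ c' := by
  induction n with
  | zero => funext x; simp [dprism]
  | succ n ih =>
    funext x
    obtain ⟨a, x, rfl⟩ : ∃ a y, x = vecCons a y := ⟨vecHead x, vecTail x, by simp⟩
    have h1 : (fun y => (c + c') (vecCons (f₀ a) y)) =
      (fun y => c (vecCons (f₀ a) y)) + (fun y => c' (vecCons (f₀ a) y)) := rfl
    rw [Pi.add_apply, dprism_cons, dprism_cons, dprism_cons, h1, ih, prism_add]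
    simp only [Pi.add_apply]
    ring

theorem dprism_smul (f₀ f₁ f₂ : E → E') {n : ℕ} (a : k) (c : (Fin (n + 2) → E') → k) :
    dprism f₀ f₁ f₂ (a • c) = a • dprism f₀ f₁ f₂ c := by
  induction n with
  | zero => funext x; simp [dprism]
  | succ n ih =>
    funext x
    obtain ⟨b, x, rfl⟩ : ∃ a y, x = vecCons a y := ⟨vecHead x, vecTail x, by simp⟩
    have h1 : (fun y => (a • c) (vecCons (f₀ b) y)) = a • (fun y => c (vecCons (f₀ b) y)) := rfl
    rw [Pi.smul_apply, dprism_cons, dprism_cons, h1, ih, prism_smul]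
    simp only [Pi.smul_apply, smul_eq_mul]
    ring

/-- The double prism as a linear map. -/
def dprismL (k : Type) [Field k] (f₀ f₁ f₂ : E → E') (n : ℕ) :
    ((Fin (n + 2) → E') → k) →ₗ[k] ((Fin n → E) → k) where
  toFun := dprism f₀ f₁ f₂
  map_add' := dprism_add f₀ f₁ f₂
  map_smul' := dprism_smul f₀ f₁ f₂

theorem dprismL_apply (f₀ f₁ f₂ : E → E') {n : ℕ} (c : (Fin (n + 2) → E') → k) :
    dprismL k f₀ f₁ f₂ n c = dprism f₀ f₁ f₂ c := rfl

theorem dprism_sub (f₀ f₁ f₂ : E → E') {n : ℕ} (c c' : (Fin (n + 2) → E') → k) :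
    dprism f₀ f₁ f₂ (c - c') = dprism f₀ f₁ f₂ c - dprism f₀ f₁ f₂ c' :=
  (dprismL k f₀ f₁ f₂ n).map_sub c c'

theorem prism_neg (f₀ f₁ : E → E') {n : ℕ} (c : (Fin (n + 1) → E') → k) :
    prism f₀ f₁ (-c) = - prism f₀ f₁ c := (prismL k f₀ f₁ n).map_neg c

/-- The head part of the double prism. -/
theorem dprism_head (f₀ f₁ f₂ : E → E') {n : ℕ} (c : (Fin (n + 3) → E') → k) (a : E) :
    (fun x : Fin n → E => dprism f₀ f₁ f₂ c (vecCons a x)) =
      pb f₂ (fun y => c (vecCons (f₀ a) (vecCons (f₁ a) (vecCons (f₂ a) y)))) -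
      prism f₁ f₂ (fun y => c (vecCons (f₀ a) (vecCons (f₁ a) y))) +
      dprism f₀ f₁ f₂ (fun y => c (vecCons (f₀ a) y)) := by
  funext x
  rw [dprism_cons, prism_cons]
  rfl

theorem prism_head (f₀ f₁ : E → E') {n : ℕ} (c : (Fin (n + 2) → E') → k) (a : E) :
    (fun x : Fin n → E => prism f₀ f₁ c (vecCons a x)) =
      pb f₁ (fun y => c (vecCons (f₀ a) (vecCons (f₁ a) y))) -
      prism f₀ f₁ (fun y => c (vecCons (f₀ a) y)) := by
  funext x
  rw [prism_cons]
  rfl

theorem d_head {n : ℕ} (c : (Fin (n + 1) → E) → k) (a : E) :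
    (fun x : Fin (n + 1) → E => d c (vecCons a x)) = c - d (fun y => c (vecCons a y)) := by
  funext x
  rw [d_cons]
  rfl

/-- The prism identity, as an identity of functions. -/
theorem d_prism' (f₀ f₁ : E → E') {n : ℕ} (c : (Fin (n + 1) → E') → k) :
    d (prism f₀ f₁ c) = pb f₁ c - pb f₀ c - prism f₀ f₁ (d c) := by
  funext x
  have := d_prism f₀ f₁ c x
  simp only [Pi.sub_apply, pb_apply]
  linear_combination this

/-- **The double prism identity.** -/
theorem d_dprism (f₀ f₁ f₂ : E → E') {n : ℕ} (c : (Fin (n + 2) → E') → k) :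
    d (dprism f₀ f₁ f₂ c) = dprism f₀ f₁ f₂ (d c) +
      (prism f₀ f₂ c - prism f₀ f₁ c - prism f₁ f₂ c) := by
  induction n with
  | zero =>
    funext x
    obtain ⟨a, x, rfl⟩ : ∃ a y, x = vecCons a y := ⟨vecHead x, vecTail x, by simp⟩
    have h0 : ∀ y z : Fin 0 → E', y = z := fun y z => Subsingleton.elim _ _
    have h1 : ∀ y z : Fin 0 → E, y = z := fun y z => Subsingleton.elim _ _
    simp only [Pi.add_apply, Pi.sub_apply]
    rw [dprism_cons, prism_cons, prism_cons, prism_cons, prism_cons, d_zero_apply, d_cons,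
      d_cons, d_zero_apply]
    rw [h0 (f₁ ∘ x) (f₂ ∘ x)]
    simp only [prism, dprism, tail_cons]
    ring
  | succ n ih =>
    funext x
    obtain ⟨a, x, rfl⟩ : ∃ a y, x = vecCons a y := ⟨vecHead x, vecTail x, by simp⟩
    have h2 : (fun y => d c (vecCons (f₀ a) y)) = c - d (fun y => c (vecCons (f₀ a) y)) :=
      d_head c (f₀ a)
    have h3 : (fun y : Fin n → E => dprism f₀ f₁ f₂ c (vecCons a y)) =
      (fun y => prism f₁ f₂ (fun y => c (vecCons (f₀ a) y)) (vecCons a y)) +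
        dprism f₀ f₁ f₂ (fun y => c (vecCons (f₀ a) y)) := by
      funext y
      rw [dprism_cons]
      rfl
    have h4 := congrFun (ih (fun y => c (vecCons (f₀ a) y))) x
    have h5 := d_prism f₁ f₂ (fun y => c (vecCons (f₀ a) y)) (vecCons a x)
    simp only [Pi.add_apply, Pi.sub_apply] at h4 ⊢
    rw [d_cons, h3, d_add, dprism_cons, h2, prism_sub, dprism_sub]
    rw [d_cons] at h5
    simp only [Pi.add_apply, Pi.sub_apply]
    rw [h4, prism_cons f₀ f₂, prism_cons f₀ f₁]
    simp only [comp_vecCons] at h5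
    linear_combination h5

/-- A prism after a pullback. -/
theorem prism_pb (f₀ f₁ : E → E') (g : E' → E'') {n : ℕ} (c : (Fin (n + 1) → E'') → k) :
    prism f₀ f₁ (pb g c) = prism (g ∘ f₀) (g ∘ f₁) c := by
  induction n with
  | zero => funext x; simp [prism]
  | succ n ih =>
    funext x
    obtain ⟨a, x, rfl⟩ : ∃ a y, x = vecCons a y := ⟨vecHead x, vecTail x, by simp⟩
    have h1 : (fun y => pb g c (vecCons (f₀ a) y)) =
      pb g (fun y => c (vecCons (g (f₀ a)) y)) := by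
      funext y
      rw [pb_apply, pb_apply, comp_vecCons]
    rw [prism_cons, prism_cons, h1, ih, pb_apply, comp_vecCons, comp_vecCons]
    rfl

/-- A pullback after a prism. -/
theorem pb_prism (g : E → E') (f₀ f₁ : E' → E'') {n : ℕ} (c : (Fin (n + 1) → E'') → k) :
    pb g (prism f₀ f₁ c) = prism (f₀ ∘ g) (f₁ ∘ g) c := by
  induction n with
  | zero => funext x; simp [prism]
  | succ n ih =>
    funext x
    obtain ⟨a, x, rfl⟩ : ∃ a y, x = vecCons a y := ⟨vecHead x, vecTail x, by simp⟩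
    have h2 := congrFun (ih (fun y => c (vecCons (f₀ (g a)) y))) x
    rw [pb_apply] at h2
    rw [pb_apply, comp_vecCons, prism_cons, prism_cons, h2]
    rfl

/-- **Composition of two prisms.** -/
theorem prism_prism (f₀ f₁ : E → E') (g₀ g₁ : E' → E'') {n : ℕ}
    (c : (Fin (n + 2) → E'') → k) : prism f₀ f₁ (prism g₀ g₁ c) =
      dprism (g₀ ∘ f₀) (g₁ ∘ f₀) (g₁ ∘ f₁) c - dprism (g₀ ∘ f₀) (g₀ ∘ f₁) (g₁ ∘ f₁) c := by
  induction n with
  | zero => funext x; simp [prism, dprism]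
  | succ n ih =>
    funext x
    obtain ⟨a, x, rfl⟩ : ∃ a y, x = vecCons a y := ⟨vecHead x, vecTail x, by simp⟩
    have h1 : (fun y => prism g₀ g₁ c (vecCons (f₀ a) y)) =
      pb g₁ (fun y => c (vecCons (g₀ (f₀ a)) (vecCons (g₁ (f₀ a)) y))) -
        prism g₀ g₁ (fun y => c (vecCons (g₀ (f₀ a)) y)) := prism_head g₀ g₁ c (f₀ a)
    have h2 : ∀ c' : (Fin (n + 1) → E'') → k, prism f₀ f₁ (pb g₁ c') x =
      prism (g₁ ∘ f₀) (g₁ ∘ f₁) c' x := by
      intro c'
      exact congrFun (prism_pb f₀ f₁ g₁ c') x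
    have h3 : ∀ c' : (Fin (n + 1) → E'') → k, prism g₀ g₁ c' (f₁ ∘ x) =
      prism (g₀ ∘ f₁) (g₁ ∘ f₁) c' x := by
      intro c'
      exact congrFun (pb_prism f₁ g₀ g₁ c') x
    rw [Pi.sub_apply, prism_cons, h1, prism_sub, ih, Pi.sub_apply, h2, prism_cons,
      prism_cons g₀ g₁ _ (f₁ a), h3, dprism_cons, dprism_cons, prism_cons, prism_cons]
    simp only [Pi.sub_apply, Function.comp_apply, Function.comp_assoc, comp_vecCons]
    ring

/-- The values of `dprism c` at `x` only involve the values of `c` at tuples with entries among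
the `f₀ (x j)`, `f₁ (x j)` and `f₂ (x j)`. -/
theorem dprism_eq_zero (f₀ f₁ f₂ : E → E') {n : ℕ} {c : (Fin (n + 2) → E') → k} {x : Fin n → E}
    (h : ∀ y, (∀ i, ∃ j, y i = f₀ (x j) ∨ y i = f₁ (x j) ∨ y i = f₂ (x j)) → c y = 0) :
    dprism f₀ f₁ f₂ c x = 0 := by
  induction n with
  | zero => rfl
  | succ n ih =>
    obtain ⟨a, x, rfl⟩ : ∃ a y, x = vecCons a y := ⟨vecHead x, vecTail x, by simp⟩
    rw [dprism_cons, prism_eq_zero, ih, add_zero]
    · intro y hy
      apply h
      intro i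
      refine Fin.cases ?_ (fun i => ?_) i
      · exact ⟨0, Or.inl rfl⟩
      · obtain ⟨j, hj⟩ := hy i
        exact ⟨j.succ, by rw [cons_val_succ, cons_val_succ]; exact hj⟩
    · intro y hy
      apply h
      intro i
      refine Fin.cases ?_ (fun i => ?_) i
      · exact ⟨0, Or.inl rfl⟩
      · obtain ⟨j, hj⟩ := hy i
        exact ⟨j, by rw [cons_val_succ]; exact Or.inr hj⟩

/-- A prism whose two maps agree up to the exact composite vanishes on itself. -/
theorem prism_prism_self (f : E → E) {n : ℕ} (c : (Fin (n + 2) → E) → k) :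
    prism id f (prism id f c) = 0 := by
  rw [prism_prism]
  simp

/-- **Subdivision of a prism.** -/
theorem prism_subdiv (f : ℕ → E → E') (l : ℕ) {n : ℕ} (c : (Fin (n + 2) → E') → k) :
    prism (f 0) (f (l + 1)) c - ∑ j ∈ Finset.range (l + 1), prism (f j) (f (j + 1)) c =
      d (∑ j ∈ Finset.range l, dprism (f 0) (f (j + 1)) (f (j + 2)) c) -
        ∑ j ∈ Finset.range l, dprism (f 0) (f (j + 1)) (f (j + 2)) (d c) := by
  induction l with
  | zero => simp [d_zero]
  | succ l ih =>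
    have h1 := Finset.sum_range_succ (fun x => prism (f x) (f (x + 1)) c) (l + 1)
    have h2 := Finset.sum_range_succ (fun j => dprism (f 0) (f (j + 1)) (f (j + 2)) c) l
    have h3 := Finset.sum_range_succ (fun j => dprism (f 0) (f (j + 1)) (f (j + 2)) (d c)) l
    rw [h1, h2, h3, d_add, d_dprism (f 0) (f (l + 1)) (f (l + 2))]
    have h4 : prism (f 0) (f (l + 1 + 1)) c -
      (∑ x ∈ Finset.range (l + 1), prism (f x) (f (x + 1)) c +
        prism (f (l + 1)) (f (l + 1 + 1)) c) =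
      (prism (f 0) (f (l + 1)) c - ∑ x ∈ Finset.range (l + 1), prism (f x) (f (x + 1)) c) +
        (prism (f 0) (f (l + 2)) c - prism (f 0) (f (l + 1)) c -
          prism (f (l + 1)) (f (l + 2)) c) := by abel
    rw [h4, ih]
    abel

end Vale.Agent.P265.AS
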