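import Vale.Agent.P216.Spine.Build
import Vale.Agent.P216.LS.Stmt

/-!
# The squaring map on the trivial double cover (P216, Theorem C, block S5)

`psi (c, z) = (c ^ 2, z)`.
-/

open Set
open Vale.Agent.P216.H288 Vale.Agent.P216.H494 Vale.Agent.P216.L250

namespace Vale.Agent.P216.H670

variable {M : Type} [MetricSpace M]

/-- the squaring of loops on the trivial double cover -/
def psi (q : LM M × ℂ) : LM M × ℂ := (iter 2 q.1, q.2)

@[simp] theorem psi_fst (q : LM M × ℂ) : (psi q).1 = iter 2 q.1 := rfl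
@[simp] theorem psi_snd (q : LM M × ℂ) : (psi q).2 = q.2 := rfl

theorem isometry_psi : Isometry (psi (M := M)) :=
  Isometry.of_dist_eq fun q q' => by
    simp [Prod.dist_eq, (isometry_iter (M := M) two_pos).dist_eq]

theorem continuous_psi : Continuous (psi (M := M)) := isometry_psi.continuous

theorem psi_injective : Function.Injective (psi (M := M)) := isometry_psi.injective

theorem psi_deck (q : LM M × ℂ) : psi (deckC q) = deckC (psi q) := rfl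

theorem psi_rev (q : LM M × ℂ) : psi (revC q) = revC (psi q) :=
  Prod.ext (rev_iter 2 q.1).symm rfl

theorem rot_two_psi (q : LM M × ℂ) : rotC (1 / (2 : ℕ) : ℝ) (psi q) = psi q :=
  Prod.ext (rot_iter_self two_pos q.1) rfl

/-- `g (psi x) = psi (g ^ 2 x)` for `g` of order `4`. -/
theorem rot_four_psi (q : LM M × ℂ) :
    rotC (1 / (4 : ℕ) : ℝ) (psi q) = psi (rotC (1 / (2 : ℕ) : ℝ) q) := by
  refine Prod.ext ?_ rfl
  change rot (1 / (4 : ℕ) : ℝ) (iter 2 q.1) = iter 2 (rot (1 / (2 : ℕ) : ℝ) q.1)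
  rw [rot_iter]
  congr 2
  norm_num

theorem rot_four_four (q : LM M × ℂ) :
    rotC (1 / (4 : ℕ) : ℝ) (rotC (1 / (4 : ℕ) : ℝ) q) = rotC (1 / (2 : ℕ) : ℝ) q := by
  rw [rotC_rotC]
  congr 1
  norm_num

/-- the rotation by `a` after the squaring -/
theorem rot_psi (a : ℝ) (q : LM M × ℂ) : rotC a (psi q) = psi (rotC (2 * a) q) := by
  refine Prod.ext ?_ rfl
  change rot a (iter 2 q.1) = iter 2 (rot (2 * a) q.1)
  rw [rot_iter]
  norm_num

theorem psi_mem {s : ℝ} {q : LM M × ℂ} (h : q ∈ Xt (Hol.triv : Hol M) s) :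
    psi q ∈ Xt (Hol.triv : Hol M) (2 * s) :=
  ⟨by simpa using iter_mem h.1 2, h.2⟩

theorem image_psi {s : ℝ} :
    psi '' Xt (Hol.triv : Hol M) s =
      {x ∈ Xt (Hol.triv : Hol M) (2 * s) | rotC (1 / (2 : ℕ) : ℝ) x = x} := by
  ext x
  constructor
  · rintro ⟨q, hq, rfl⟩
    exact ⟨psi_mem hq, rot_two_psi q⟩
  · rintro ⟨hx, hfix⟩
    have hf : rot (1 / (2 : ℕ) : ℝ) x.1 = x.1 := congrArg Prod.fst hfix
    have h1 := iter_rootL two_pos hf
    refine ⟨(rootL 2 x.1, x.2), ⟨?_, hx.2⟩, Prod.ext h1 rfl⟩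
    refine mem_of_iter_mem two_pos ?_
    change iter 2 (rootL 2 x.1) ∈ XE M ((2 : ℕ) * s)
    rw [h1, Nat.cast_two]
    exact hx.1

theorem iter_mem_KK_iff {G : GeoList M} {e a : ℝ} {g : LM M} :
    iter 2 g ∈ G.KK e (2 * a) ↔ g ∈ G.KK e a := by
  constructor
  · rintro ⟨j, b, h⟩
    refine ⟨j, b, fun t => ?_⟩
    have h1 := h (t / 2)
    rw [fn_iter] at h1
    rw [show t = (2 : ℕ) * (t / 2) by push_cast; ring, h1]
    congr 1
    push_cast
    ring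
  · intro h
    simpa using iter_mem_KK h 2

theorem psi_mem_Kt_iff {G : GeoList M} {e a : ℝ} {x : LM M × ℂ} :
    psi x ∈ Kt G (Hol.triv : Hol M) e (2 * a) ↔ x ∈ Kt G (Hol.triv : Hol M) e a :=
  and_congr iter_mem_KK_iff Iff.rfl

section

variable [CompactSpace M] (G : GeoList M) (hD : DescentStmt (Hol.triv : Hol M) G)

theorem mk_psi_cont (s : ℝ) : ContinuousOn psi ((mkGSys (Hol.triv : Hol M) G hD).X s) :=
  continuous_psi.continuousOn

theorem mk_psi_image {s : ℝ} (hs : 0 ≤ s) :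
    psi '' (mkGSys (Hol.triv : Hol M) G hD).X s =
      {x ∈ (mkGSys (Hol.triv : Hol M) G hD).X (2 * s) |
        (mkGSys (Hol.triv : Hol M) G hD).rot 2 x = x} := by
  change psi '' XX (Hol.triv : Hol M) s = {x ∈ XX (Hol.triv : Hol M) (2 * s) | _}
  rw [XX_eq hs, XX_eq (by positivity), image_psi]
  rfl

theorem mk_K_free {p : ℕ} (hp : 0 < p) {a : ℝ} (ha : 0 < a)
    (hc : a / (p : ℝ) ∉ AS.Crit (mkGSys (Hol.triv : Hol M) G hD).ℓ) {x : LM M × ℂ}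
    (hx : x ∈ (mkGSys (Hol.triv : Hol M) G hD).K1 a ∪ (mkGSys (Hol.triv : Hol M) G hD).K2 a) :
    (mkGSys (Hol.triv : Hol M) G hD).rot p x ≠ x := by
  rcases hx with hx | hx
  · exact not_fixed_Kt Hol.triv (Or.inl rfl) ha hp hc hx
  · exact not_fixed_Kt Hol.triv (Or.inr rfl) ha hp hc hx

/-- the descent for every multiplicity `p ≥ 1` -/
theorem mk_descent (H : Hol M) {ρ : ℝ} (hρ : 0 < ρ) (h : LS.UniqSeg M ρ) {p : ℕ} (hp : 0 < p)
    {T : ℝ} (hT : 0 < T) : ∃ D : ℝ → LM M × ℂ → LM M × ℂ,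
    ContinuousOn (fun q : ℝ × (LM M × ℂ) => D q.1 q.2) (Icc (0 : ℝ) 1 ×ˢ XX H T) ∧
    (∀ x ∈ XX H T, D 0 x = x) ∧
    (∀ u ∈ Icc (0 : ℝ) 1, ∀ s ≤ T, MapsTo (D u) (XX H s) (XX H s)) ∧
    (∀ u ∈ Icc (0 : ℝ) 1, ∀ x ∈ XX H T, D u (deckC x) = deckC (D u x)) ∧
    (∀ u ∈ Icc (0 : ℝ) 1, ∀ x ∈ XX H T,
      D u (rotC (1 / p : ℝ) x) = rotC (1 / p : ℝ) (D u x)) ∧
    (∀ x ∈ XX H T, D 1 (revC x) = revC (D 1 x)) ∧
    (∀ u ∈ Icc (0 : ℝ) 1, ∀ a, 0 < a → a ≤ T →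
      MapsTo (D u) (Kt G H 1 a) (Kt G H 1 a) ∧ MapsTo (D u) (Kt G H (-1) a) (Kt G H (-1) a)) ∧
    (∀ a, 0 < a → a < T → ∀ U : Set (LM M × ℂ), IsOpen U → Kt G H 1 a ∪ Kt G H (-1) a ⊆ U →
      ∃ ε > 0, ∀ x ∈ XX H (a + ε), x ∉ U → D 1 x ∈ XX H (a - ε)) := by
  obtain ⟨D, h1, h2, h3, h4, h5, h6, h7, h8⟩ := LS.exists_descent G H hρ h hp hT.le
  have hX : XX H T = Xt H T := XX_eq hT.le
  refine ⟨D, ?_, fun x _ => h2 x, ?_, fun u _ x _ => h4 u x, ?_, ?_, ?_, ?_⟩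
  · rw [hX]; exact h1
  · intro u hu s hs x hx
    exact h3 _ (le_max_right _ _) (max_le hs hT.le) u hu x hx
  · rw [hX]; exact h5
  · rw [hX]; exact h6
  · intro u hu a ha haT
    refine ⟨fun x hx => ?_, fun x hx => ?_⟩
    · rw [h7 1 (Or.inl rfl) a ha haT x hx u hu]; exact hx
    · rw [h7 (-1) (Or.inr rfl) a ha haT x hx u hu]; exact hx
  · intro a ha haT U hU hK
    obtain ⟨ε, hε, hε1, hε2, hε3⟩ := h8 a ha haT U hU (subset_union_left.trans hK)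
      (subset_union_right.trans hK)
    refine ⟨ε, hε, fun x hx hxU => ?_⟩
    rw [XX_eq (by linarith)] at hx
    rw [XX_eq (by linarith)]
    exact hε3 x hx hxU

end

end Vale.Agent.P216.H670
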