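import Vale.Agent.P216.H670.Rel

/-!
# The relative Gysin sequence and the connecting maps (P216, Theorem C, block REL2)

`T ≤ W ≤ S` stable subcomplexes, `X : Circ G`.  The connecting maps
`H (S / W) n → H (W / T) (n + 1)` and `F (S / W) n → F (W / T) (n + 1)` commute with `π` and
anticommute with the transfer `d`.
-/

namespace Vale.Agent.P216.DV

open Vale.Agent.P216.AS

variable {k : Type} [Field k] {C : Amb k} {G : GCx C}

/-- the cochain representing the transfer of a class -/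
theorem exists_δ_a (P : G.Pair) (n : ℕ) {x : C.K (n + 1)} (hx : x ∈ Zc P.S P.T (n + 1)) :
    ∃ hy, P.δ (n + 1) (P.a (n + 1) (H.mk x hx)) =
      H.mk (C := G.Tot) (((-1 : k) ^ (n + 1)) • GCx.Pair.sg (n + 1) (G.nm (n + 1) x)) hy := by
  obtain ⟨h1, e1⟩ := P.a_mk hx
  obtain ⟨hx1, hx2⟩ := mem_Zc.mp hx
  have hnS : G.nm (n + 1) x ∈ P.S.S (n + 1) := P.hS.nm_mem _ _ hx1
  have hyS : ((-1 : k) ^ (n + 1)) • GCx.Pair.sg (n + 1) (G.nm (n + 1) x) ∈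
      (G.TotS P.S P.hS).S (n + 1) := Submodule.smul_mem _ _ (GCx.Pair.sg_mem_TS le_rfl hnS)
  have hD : G.D (n + 1 + 1) (GCx.Pair.sg (n + 1) x) -
      ((-1 : k) ^ (n + 1)) • GCx.Pair.sg (n + 1) (G.nm (n + 1) x) ∈
      (G.TotS P.T P.hT).S (n + 1 + 2) := by
    have e : G.D (n + 1 + 1) (GCx.Pair.sg (n + 1) x) -
        ((-1 : k) ^ (n + 1)) • GCx.Pair.sg (n + 1) (G.nm (n + 1) x) =
        GCx.Pair.sg (n + 2) (C.d (n + 1) x) := by
      funext q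
      rw [Pi.sub_apply, Pi.smul_apply]
      rcases eq_or_ne q (n + 1) with rfl | h1
      · rw [GCx.Pair.D_sg_same, GCx.Pair.sg_same, GCx.Pair.sg_ne (by omega), G.θ_even (by omega),
          sub_self]
      · rcases eq_or_ne q (n + 2) with rfl | h2
        · rw [GCx.Pair.D_sg_succ, GCx.Pair.sg_ne (by omega), GCx.Pair.sg_same, smul_zero,
            sub_zero]
        · rw [GCx.Pair.D_sg_ne _ _ h1 h2, GCx.Pair.sg_ne h1, GCx.Pair.sg_ne h2, smul_zero,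
            sub_zero]
    rw [e]
    exact GCx.Pair.sg_mem_TS (by omega) hx2
  refine ⟨P.rel_cocycle hyS hD, ?_⟩
  rw [e1]
  exact P.δ_mk _ _ hD

namespace Circ

variable {X : Circ G} {S W T : Sub C} {hS : G.Stable S} {hW : G.Stable W} {hT : G.Stable T}
  {hWS : ∀ n, W.S n ≤ S.S n} {hTW : ∀ n, T.S n ≤ W.S n}

/-- the connecting map on `F` -/
noncomputable def delP (h : X.PSt (⟨S, W, hS, hW, hWS⟩ : G.Pair))
    (h' : X.PSt (⟨W, T, hW, hT, hTW⟩ : G.Pair)) (n : ℕ) : h.F n →ₗ[k] h'.F (n + 1) :=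
  X.delK h.tS h.tT h'.tT n

theorem delP_coe (h : X.PSt (⟨S, W, hS, hW, hWS⟩ : G.Pair))
    (h' : X.PSt (⟨W, T, hW, hT, hTW⟩ : G.Pair)) (n : ℕ) (x : h.F n) :
    (delP h h' n x : (⟨W, T, hW, hT, hTW⟩ : G.Pair).FF (n + 1 + 1)) =
      Hdel (G.TotS S hS) (G.TotS W hW) (G.TotS T hT) (n + 1) x.1 := rfl

/-- `π (δ x) = δ (π x)` -/
theorem πF_delP (h : X.PSt (⟨S, W, hS, hW, hWS⟩ : G.Pair))
    (h' : X.PSt (⟨W, T, hW, hT, hTW⟩ : G.Pair)) (n : ℕ) (x : h.F n) :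
    h'.πF (n + 1) (delP h h' n x) = Hdel S W T n (h.πF n x) := by
  obtain ⟨y, hy⟩ := h.exists_VF x.2
  have hx : x = ⟨h.VF n y, h.VF_mem n y⟩ := Subtype.ext hy.symm
  rw [hx, h.πF_VF]
  have h1 : delP h h' n ⟨h.VF n y, h.VF_mem n y⟩ =
      ⟨h'.VF (n + 1) (Hdel (G.TotS S hS) (G.TotS W hW) (G.TotS T hT) n y),
        h'.VF_mem (n + 1) _⟩ := by
    refine Subtype.ext ?_
    rw [delP_coe]
    exact (V_Hdel X h.tS h.tT h'.tT n y).symm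
  rw [h1, h'.πF_VF]
  obtain ⟨c, hc, rfl⟩ := H.exists_mk y
  refine mk_congr (D := C) (x := G.D n c (n + 1)) (y := C.d n (c n)) ?_ _ _
  rw [G.D_succ, (mem_Zc.mp hc).1.2 (n + 1) (by omega), map_zero, smul_zero, add_zero]

/-- `d (δ x) = - δ (d x)` -/
theorem dF_Hdel (h : X.PSt (⟨S, W, hS, hW, hWS⟩ : G.Pair))
    (h' : X.PSt (⟨W, T, hW, hT, hTW⟩ : G.Pair)) (n : ℕ)
    (x : (⟨S, W, hS, hW, hWS⟩ : G.Pair).HH (n + 1)) :
    h'.dF (n + 1) (Hdel S W T (n + 1) x) = - delP h h' n (h.dF n x) := by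
  obtain ⟨x, hx, rfl⟩ := H.exists_mk x
  refine Subtype.ext ?_
  rw [Submodule.coe_neg, delP_coe, PSt.dF_coe, PSt.dF_coe, Hdel_mk]
  obtain ⟨h1, e1⟩ := exists_δ_a (⟨S, W, hS, hW, hWS⟩ : G.Pair) n hx
  obtain ⟨h2, e2⟩ := exists_δ_a (⟨W, T, hW, hT, hTW⟩ : G.Pair) (n + 1) (mapZ_d T hx)
  rw [e1, e2, Hdel_mk, ← H.mk_neg]
  refine mk_congr (D := G.Tot) ?_ _ _
  change ((-1 : k) ^ (n + 1 + 1)) • GCx.Pair.sg (n + 1 + 1) (G.nm (n + 1 + 1) (C.d (n + 1) x)) =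
    - G.D (n + 1) (((-1 : k) ^ (n + 1)) • GCx.Pair.sg (n + 1) (G.nm (n + 1) x))
  rw [map_smul, pow_succ (-1 : k) (n + 1), mul_neg_one, neg_smul, neg_inj]
  congr 1
  funext q
  rcases eq_or_ne q (n + 1) with rfl | h1
  · rw [GCx.Pair.D_sg_same, GCx.Pair.sg_ne (by omega), G.θ_odd (by omega), G.g_nm, sub_self,
      smul_zero]
  · rcases eq_or_ne q (n + 2) with rfl | h2
    · rw [GCx.Pair.D_sg_succ, GCx.Pair.sg_same, G.d_nm]
    · rw [GCx.Pair.D_sg_ne _ _ h1 h2, GCx.Pair.sg_ne h2]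

end Circ

end Vale.Agent.P216.DV
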