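import Vale.Agent.P216.H773.Inst4
import Vale.Agent.P216.Spine.Build

/-!
# The rotations never agree with the deck transformation (hypothesis `Sheet` of `H773/Inst4`)
-/

open Vale.Agent.P216.H288 Vale.Agent.P216.H494 Vale.Agent.P216.L250

namespace Vale.Agent.P216.H670

variable {M : Type} [MetricSpace M] [CompactSpace M]

theorem sheet_mk (H : Hol M) (G : GeoList M) (hD : DescentStmt H G) :
    (mkGSys H G hD).Sheet := by
  intro s x hx h
  have h1 : x.2 = -x.2 := congrArg Prod.snd h
  have h2 : (2 : ℂ) * x.2 = 0 := by linear_combination h1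
  have h3 : x ∈ Xt H (max s 0) := hx
  exact snd_ne_zero h3 ((mul_eq_zero.1 h2).resolve_left two_ne_zero)

theorem sheet_triv (G : GeoList M) (hD : DescentStmt (Hol.triv : Hol M) G) :
    (mkGSys Hol.triv G hD).Sheet := sheet_mk Hol.triv G hD

end Vale.Agent.P216.H670
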