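import Vale.Agent.P216.DV706.Fun
import Vale.Agent.P216.Tight923.Trace

/-!
# The reversal and the product with `v`

`Nop n c q = (n - q) c q` (the Borel degree), `Top n` = the part `± θ` of the differential.
`Top = [N, D]` is null homotopic, and `R V + V R = ± Top R`. So the reversal anticommutes with
`V` on cohomology; `ker V` is invariant, and its traces are zero as soon as the traces of the
whole cohomology are zero.
-/

open Module LinearMap

namespace Vale.Agent.P216.DV

open Vale.Agent.P216.AS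

variable {k : Type} [Field k] {C : Amb k} {G : GCx C}

namespace Circ

/-- the Borel degree of the components -/
def Nop (n : ℕ) : (∀ q, C.K q) →ₗ[k] (∀ q, C.K q) where
  toFun c q := ((n : k) - (q : k)) • c q
  map_add' c c' := by funext q; simp
  map_smul' a c := by
    funext q
    simp only [Pi.smul_apply, RingHom.id_apply]
    rw [smul_comm]

theorem Nop_apply (n : ℕ) (c : ∀ q, C.K q) (q : ℕ) : Nop n c q = ((n : k) - (q : k)) • c q := rfl

/-- the second part of the differential of the total complex -/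
def Thop (G : GCx C) (n : ℕ) : (∀ q, C.K q) →ₗ[k] (∀ q, C.K q) where
  toFun c q := (-1 : k) ^ q • G.θ (n + 1 + q) q (c q)
  map_add' c c' := by funext q; simp
  map_smul' a c := by
    funext q
    simp only [Pi.smul_apply, RingHom.id_apply, map_smul]
    rw [smul_comm]

theorem Thop_apply (n : ℕ) (c : ∀ q, C.K q) (q : ℕ) :
    Thop G n c q = (-1 : k) ^ q • G.θ (n + 1 + q) q (c q) := rfl

/-- The second part of the differential is null homotopic. -/
theorem Thop_eq (n : ℕ) (c : ∀ q, C.K q) :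
    Thop G n c = Nop (n + 1) (G.D n c) - G.D n (Nop n c) := by
  funext q
  rw [Pi.sub_apply, Thop_apply, Nop_apply]
  cases q with
  | zero =>
    rw [GCx.D_zero, GCx.D_zero, Nop_apply, map_smul, ← sub_smul]
    simp
  | succ q =>
    rw [GCx.D_succ, GCx.D_succ, Nop_apply, Nop_apply, map_smul, map_smul]
    push_cast
    module

variable (X : Circ G) (R : Rev G)

/-- compatibility of the reversal with `A` -/
def RComp : Prop := ∀ n x, R.r n (X.A n x) = - X.A n (R.r n x)

variable {X R}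

/-- `R V + V R = ± Top R`. -/
theorem RT_Vop (hA : X.RComp R) (n : ℕ) (c : ∀ q, C.K q) :
    R.RT (n + 1) (X.Vop n c) + X.Vop n (R.RT n c) = (-1 : k) ^ n • Thop G n (R.RT n c) := by
  funext q
  change R.RT (n + 1) (X.Vop n c) q + X.Vop n (R.RT n c) q =
    (-1 : k) ^ n • Thop G n (R.RT n c) q
  rw [Thop_apply, smul_smul, ← pow_add, Rev.RT_apply]
  have hAs : ∀ y : C.K q, X.A q (G.g q y) = X.A q y - G.nm q y := by
    intro y
    rw [← X.A_sub, map_sub]
    abel
  rcases Rev.four_cases (n + 3 * q) with h | h | h | h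
  · rw [X.Vop_even (by omega), X.Vop_even (by omega), R.ρ_one (by omega), Rev.RT_apply,
      R.ρ_zero h, G.θ_odd (by omega), Even.neg_one_pow (by rw [Nat.even_iff]; omega), one_smul]
    abel
  · rw [X.Vop_odd (by omega), X.Vop_odd (by omega), R.ρ_two (by omega), Rev.RT_apply,
      R.ρ_one h, G.θ_even (by omega), Odd.neg_one_pow (by rw [Nat.odd_iff]; omega), hA,
      map_neg, map_neg, hAs, G.nm_g]
    module
  · rw [X.Vop_even (by omega), X.Vop_even (by omega), R.ρ_three (by omega), Rev.RT_apply,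
      R.ρ_two h, G.θ_odd (by omega), Even.neg_one_pow (by rw [Nat.even_iff]; omega), one_smul,
      map_neg]
    abel
  · rw [X.Vop_odd (by omega), X.Vop_odd (by omega), R.ρ_zero (by omega), Rev.RT_apply,
      R.ρ_three h, G.θ_even (by omega), Odd.neg_one_pow (by rw [Nat.odd_iff]; omega), hA,
      hAs, G.nm_g]
    module

variable (R) in
/-- Invariance of a subcomplex of the total complex under the reversal and the Borel degree. -/
structure RTSt (S : Sub G.Tot) : Prop where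
  R_mem : ∀ n (c : ∀ q, C.K q), c ∈ S.S n → R.RT n c ∈ S.S n
  N_mem : ∀ n (c : ∀ q, C.K q), c ∈ S.S n → Nop n c ∈ S.S n

variable {S T : Sub G.Tot}

theorem RT_isZ (hS : RTSt R S) (hT : RTSt R T) (n : ℕ) (c : ∀ q, C.K q)
    (hc : c ∈ Zc S T n) : R.RT n c ∈ Zc S T n := by
  refine mem_Zc.mpr ⟨hS.R_mem n c hc.1, ?_⟩
  change G.D n (R.RT n c) ∈ T.S (n + 1)
  rw [R.D_RT]
  exact hT.R_mem _ _ hc.2

theorem RT_isB (hS : RTSt R S) (hT : RTSt R T) (n : ℕ) (c : ∀ q, C.K q)
    (hc : c ∈ Bc S T n) : R.RT n c ∈ Bc S T n := by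
  cases n with
  | zero => exact mem_Bc_zero.mpr (hT.R_mem 0 c (mem_Bc_zero.mp hc))
  | succ n =>
    obtain ⟨y, hy, h⟩ := mem_Bc_succ.mp hc
    refine mem_Bc_succ.mpr ⟨R.RT n y, hS.R_mem n y hy, ?_⟩
    change R.RT (n + 1) c - G.D n (R.RT n y) ∈ _
    rw [R.D_RT, ← map_sub]
    exact hT.R_mem _ _ h

/-- the reversal on the cohomology of a subquotient of the total complex -/
def rT (hS : RTSt R S) (hT : RTSt R T) (n : ℕ) : H S T n →ₗ[k] H S T n :=
  H.gmap (C := G.Tot) (C' := G.Tot) (R.RT n) (RT_isZ hS hT n)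
    (fun c _ hc => RT_isB hS hT n c hc)

theorem rT_mk (hS : RTSt R S) (hT : RTSt R T) {n : ℕ} {c : ∀ q, C.K q} (hc : c ∈ Zc S T n) :
    rT hS hT n (H.mk c hc) = H.mk (C := G.Tot) (R.RT n c) (RT_isZ hS hT n c hc) :=
  H.gmap_mk _ _ _ hc

theorem rT_rT (hS : RTSt R S) (hT : RTSt R T) (n : ℕ) (x : H S T n) :
    rT hS hT n (rT hS hT n x) = x := by
  obtain ⟨c, hc, rfl⟩ := H.exists_mk x
  rw [rT_mk, rT_mk, H.mk_eq_mk, R.RT_RT, sub_self]
  exact Submodule.zero_mem _

/-- **The reversal anticommutes with `V`.** -/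
theorem rT_V (hA : X.RComp R) (hS : X.TSt S) (hT : X.TSt T) (hS' : RTSt R S) (hT' : RTSt R T)
    (n : ℕ) (x : H S T n) :
    rT hS' hT' (n + 1) (X.V hS hT n x) = - X.V hS hT n (rT hS' hT' n x) := by
  obtain ⟨c, hc, rfl⟩ := H.exists_mk x
  rw [X.V_mk, rT_mk, rT_mk, X.V_mk, ← H.mk_neg, H.mk_eq_mk]
  have hz := RT_isZ hS' hT' n c hc
  have h1 := RT_Vop hA n c
  have h2 : R.RT (n + 1) (X.Vop n c) - -X.Vop n (R.RT n c) -
      G.D n (-((-1 : k) ^ n • Nop n (R.RT n c))) =
      (-1 : k) ^ n • Nop (n + 1) (G.D n (R.RT n c)) := by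
    rw [sub_neg_eq_add, h1, Thop_eq, map_neg, map_smul, smul_sub]
    abel
  refine mem_Bc_succ.mpr ⟨-((-1 : k) ^ n • Nop n (R.RT n c)),
    Submodule.neg_mem _ (Submodule.smul_mem _ _ (hS'.N_mem n _ hz.1)), ?_⟩
  change R.RT (n + 1) (X.Vop n c) - -X.Vop n (R.RT n c) -
      G.D n (-((-1 : k) ^ n • Nop n (R.RT n c))) ∈ T.S (n + 1)
  rw [h2]
  exact Submodule.smul_mem _ _ (hT'.N_mem _ _ hz.2)

theorem rT_mem_kV (hA : X.RComp R) (hS : X.TSt S) (hT : X.TSt T) (hS' : RTSt R S)
    (hT' : RTSt R T) {n : ℕ} {x : H S T (n + 1)} (hx : x ∈ X.kV hS hT n) :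
    rT hS' hT' (n + 1) x ∈ X.kV hS hT n := by
  rw [X.mem_kV] at hx ⊢
  have := rT_V hA hS hT hS' hT' (n + 1) x
  rw [hx, map_zero] at this
  exact neg_eq_zero.mp this.symm

theorem range_V (hS : X.TSt S) (hT : X.TSt T) (n : ℕ) :
    LinearMap.range (X.V hS hT n) = X.kV hS hT n := by
  ext x
  constructor
  · rintro ⟨y, rfl⟩
    exact X.V_mem_kV hS hT y
  · intro hx
    exact ⟨_, X.exists_V_of hS hT n x ((X.mem_kV hS hT).1 hx)⟩

open Vale.Agent.P216.Tight923 in
/-- The traces on `ker V` vanish when the traces on the whole cohomology do. -/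
theorem chiOn_kV (h2 : (2 : k) ≠ 0) (hA : X.RComp R) (hS : X.TSt S) (hT : X.TSt T)
    (hS' : RTSt R S) (hT' : RTSt R T) [∀ n, FiniteDimensional k (H S T n)]
    (h0 : ∀ n, chi (rT hS' hT' n) = 0) (n : ℕ) :
    chiOn (rT hS' hT' (n + 1)) (X.kV hS hT n) = 0 := by
  have e1 := fun n => chiOn_range_neg h2 (rT_rT hS' hT' n) (t := rT hS' hT' (n + 1))
    (X.V hS hT n) (rT_V hA hS hT hS' hT' n)
  induction n with
  | zero =>
    have e2 := e1 0
    rw [range_V, h0, sub_zero] at e2
    rw [e2]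
    have e3 : LinearMap.ker (X.V hS hT 0) = ⊥ :=
      LinearMap.ker_eq_bot'.2 fun x hx => X.V_zero_eq hS hT x hx
    rw [e3, chiOn_bot]
  | succ n ih =>
    have e2 := e1 (n + 1)
    rw [range_V, h0, sub_zero] at e2
    rw [e2]
    exact ih

end Circ

end Vale.Agent.P216.DV
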